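import Crest.Agent.X212.Ucp64.Loc
import Crest.Agent.X212.An.Defs
import Crest.Agent.X212.Sob92.Lim

/-!
# Unique continuation: spanning frames, projector bundles, manifolds
-/

namespace Crest.Agent.X212.Ucp64

open Set Filter Topology
open scoped RealInnerProductSpace Manifold ContDiff

section frame

variable {E : Type*} [NormedAddCommGroup E] [NormedSpace ℝ E] [FiniteDimensional ℝ E]
  {V W : Type*} [NormedAddCommGroup V] [InnerProductSpace ℝ V] [FiniteDimensional ℝ V]
  [NormedAddCommGroup W] [InnerProductSpace ℝ W] {ι : Type*} [Fintype ι] {Ω : Set E}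

/-- `W ⊕ V^ι` with the `L²` inner product -/
abbrev Big (W V ι : Type*) := WithLp 2 (W × PiLp 2 fun _ : ι => V)

/-- the identification with the plain product -/
noncomputable def big (W V ι : Type*) [NormedAddCommGroup V] [InnerProductSpace ℝ V]
    [NormedAddCommGroup W] [InnerProductSpace ℝ W] [Fintype ι] : (W × (ι → V)) →L[ℝ] Big W V ι :=
  (WithLp.prodContinuousLinearEquiv 2 ℝ W (PiLp 2 fun _ : ι => V)).symm.toContinuousLinearMap ∘L
    ((ContinuousLinearMap.id ℝ W).prodMap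
      (PiLp.continuousLinearEquiv 2 ℝ fun _ : ι => V).symm.toContinuousLinearMap)

omit [FiniteDimensional ℝ V] in
theorem inner_big (x y : W × (ι → V)) :
    ⟪big W V ι x, big W V ι y⟫ = ⟪x.1, y.1⟫ + ∑ a, ⟪x.2 a, y.2 a⟫ := by
  simp [big, PiLp.inner_apply]

theorem ev_zero_frame (hΩ : IsOpen Ω) {e : ι → E → E} (he : ∀ a, ContDiffOn ℝ 1 (e a) Ω)
    (hsp : ∀ x ∈ Ω, Submodule.span ℝ (range fun a => e a x) = ⊤) {P : ι → ι → E → ℝ}
    (hP : ∀ x ∈ Ω, ∀ a, ∑ c, P a c x • e c x = e a x) {σ : ι → E → V →L[ℝ] W}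
    (hσ : ∀ a, ContDiffOn ℝ 1 (σ a) Ω) {p : E → V →L[ℝ] V} (hp : ContDiffOn ℝ 1 p Ω)
    (idem : ∀ x ∈ Ω, ∀ v, p x (p x v) = p x v) (symm : ∀ x ∈ Ω, ∀ v w, ⟪p x v, w⟫ = ⟪v, p x w⟫)
    (hcl : ∀ x ∈ Ω, ∀ a c v w,
      ⟪σ a x v, σ c x w⟫ + ⟪σ c x v, σ a x w⟫ = 2 * P a c x * ⟪p x v, w⟫)
    {u : E → V} (hu : ContDiffOn ℝ 2 u Ω) (hpu : ∀ x ∈ Ω, p x (u x) = u x)
    (hL : ∀ x ∈ Ω, ∃ C, ∀ᶠ y in 𝓝 x, ‖∑ a, σ a y (fderiv ℝ u y (e a y))‖ ≤ C * ‖u y‖)
    {x : E} (hx : x ∈ Ω) (hc : x ∈ closure {y | u =ᶠ[𝓝 y] 0}) : u =ᶠ[𝓝 x] 0 := by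
  set b := Module.finBasis ℝ E
  set ε : ι → Fin (Module.finrank ℝ E) → E → ℝ := fun a i x => b.repr (e a x) i with hε
  have εd : ∀ a i, ContDiffOn ℝ 1 (ε a i) Ω := fun a i =>
    (LinearMap.toContinuousLinearMap (b.coord i)).contDiff.comp_contDiffOn (he a)
  set s : Fin (Module.finrank ℝ E) → E → V →L[ℝ] Big W V ι := fun i x =>
    big W V ι ∘L (∑ a, ε a i x • σ a x).prod
      (ContinuousLinearMap.pi fun a => ε a i x • (ContinuousLinearMap.id ℝ V - p x)) with hs
  have sa : ∀ i x v, s i x v =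
      big W V ι (∑ a, ε a i x • σ a x v, fun a => ε a i x • (v - p x v)) := fun i x v => by
    simp only [hs, ContinuousLinearMap.comp_apply, ContinuousLinearMap.prod_apply, sum_apply,
      smul_apply]
    rfl
  have hop : Op Ω s fun i j x => ∑ a, ε a i x * ε a j x := by
    refine ⟨fun i => contDiffOn_clm_apply.2 fun v => ?_,
      fun i j => ContDiffOn.sum fun a _ => (εd a i).mul (εd a j), fun x hx i j v w => ?_,
      fun x hx ξ hξ => ?_⟩
    · simp only [sa]
      exact (big W V ι).contDiff.comp_contDiffOn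
        ((ContDiffOn.sum fun a _ => (εd a i).smul ((hσ a).clm_apply contDiffOn_const)).prodMk
          (contDiffOn_pi.2 fun a =>
            (εd a i).smul (contDiffOn_const.sub (hp.clm_apply contDiffOn_const))))
    · have e1 : ⟪v - p x v, w - p x w⟫ = ⟪v, w⟫ - ⟪p x v, w⟫ := by
        rw [inner_sub_left, inner_sub_right, inner_sub_right, symm x hx v (p x w), idem x hx,
          symm x hx v w]
        ring
      have e2 : ∀ a, ∑ c, P a c x * ε c j x = ε a j x := fun a => by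
        simp only [hε]
        rw [← hP x hx a]
        simp
      have e3 : ⟪∑ a, ε a i x • σ a x v, ∑ a, ε a j x • σ a x w⟫ +
          ⟪∑ a, ε a i x • σ a x w, ∑ a, ε a j x • σ a x v⟫ =
          2 * ((∑ a, ε a i x * ε a j x) * ⟪p x v, w⟫) := by
        rw [sum_inner, sum_inner, ← Finset.sum_add_distrib, Finset.sum_mul, Finset.mul_sum]
        refine Finset.sum_congr rfl fun a _ => ?_
        rw [inner_sum, inner_sum, ← Finset.sum_add_distrib, ← e2 a, Finset.mul_sum,
          Finset.sum_mul, Finset.mul_sum]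
        refine Finset.sum_congr rfl fun c _ => ?_
        simp only [real_inner_smul_left, real_inner_smul_right]
        rw [real_inner_comm (σ c x v) (σ a x w)]
        linear_combination (ε a i x * ε c j x) * hcl x hx a c v w
      simp only [sa, inner_big, real_inner_smul_left, real_inner_smul_right]
      rw [real_inner_comm (v - p x v) (w - p x w), e1]
      have e4 : ∑ a, ε a j x * (ε a i x * (⟪v, w⟫ - ⟪p x v, w⟫)) =
          (∑ a, ε a i x * ε a j x) * (⟪v, w⟫ - ⟪p x v, w⟫) := by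
        rw [Finset.sum_mul]; exact Finset.sum_congr rfl fun a _ => by ring
      rw [e4]
      linear_combination e3
    · have e1 : ∑ i, ∑ j, (∑ a, ε a i x * ε a j x) * (ξ i * ξ j) =
          ∑ a, (∑ i, ε a i x * ξ i) ^ 2 := by
        simp only [sq, Finset.sum_mul_sum]
        rw [Finset.sum_comm (s := Finset.univ (α := ι))]
        refine Finset.sum_congr rfl fun i _ => ?_
        rw [Finset.sum_comm (s := Finset.univ (α := ι))]
        refine Finset.sum_congr rfl fun j _ => ?_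
        rw [Finset.sum_mul]
        exact Finset.sum_congr rfl fun a _ => by ring
      rw [e1]
      refine lt_of_le_of_ne (Finset.sum_nonneg fun _ _ => sq_nonneg _) fun h0 => hξ ?_
      have h1 := (Finset.sum_eq_zero_iff_of_nonneg fun _ _ => sq_nonneg _).1 h0.symm
      have h2 : b.constr ℝ ξ = 0 := by
        refine LinearMap.ext_on (hsp x hx) ?_
        rintro _ ⟨a, rfl⟩
        have := pow_eq_zero_iff two_ne_zero |>.1 (h1 a (Finset.mem_univ a))
        simpa [hε, Module.Basis.constr_apply_fintype] using this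
      funext i
      simpa using congrArg (fun L => L (b i)) h2
  refine ev_zero_of_closure hΩ b.span_eq hop hu (fun x hx => ?_) hx hc
  obtain ⟨C, hC⟩ := hL x hx
  have hn := hΩ.mem_nhds hx
  have hco : ContinuousAt (fun y a => fderiv ℝ p y (e a y)) x := continuousAt_pi.2 fun a =>
    (((hp.continuousOn_fderiv_of_isOpen hΩ le_rfl).clm_apply (he a).continuousOn).continuousAt hn)
  refine ⟨‖big W V ι‖ * max C (‖fun a => fderiv ℝ p x (e a x)‖ + 1), ?_⟩
  filter_upwards [hC, hn, hco.norm.eventually_lt_const (lt_add_one _)] with y h1 hy h2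
  have hn' := hΩ.mem_nhds hy
  have d1 := ((hp.contDiffAt hn').differentiableAt one_ne_zero).hasFDerivAt
  have d2 := ((hu.contDiffAt hn').differentiableAt two_ne_zero).hasFDerivAt
  have d3 : fderiv ℝ u y = fderiv ℝ (fun z => p z (u z)) y :=
    EventuallyEq.fderiv_eq (mem_of_superset hn' fun z hz => (hpu z hz).symm)
  rw [(d1.clm_apply d2).fderiv] at d3
  have e1 : ∀ a, ∑ i, ε a i y • fderiv ℝ u y (b i) = fderiv ℝ u y (e a y) := fun a => by
    conv_rhs => rw [← b.sum_repr (e a y), map_sum]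
    simp only [hε, map_smul]
  have e2 : ∑ i, s i y (fderiv ℝ u y (b i)) = big W V ι (∑ a, σ a y (fderiv ℝ u y (e a y)),
      fun a => fderiv ℝ p y (e a y) (u y)) := by
    simp only [sa, ← map_sum]
    congr 1
    refine Prod.ext ?_ (funext fun a => ?_)
    · simp only [Prod.fst_sum]
      rw [Finset.sum_comm]
      exact Finset.sum_congr rfl fun a _ => by simp [← e1]
    · simp only [Prod.snd_sum, Finset.sum_apply, smul_sub, Finset.sum_sub_distrib, ← map_smul,
        ← map_sum]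
      rw [show ∑ i, ε a i y • b i = e a y from b.sum_repr (e a y), sub_eq_iff_eq_add']
      exact congrArg (fun L => L (e a y)) d3
  rw [e2, mul_assoc]
  refine (ContinuousLinearMap.le_opNorm _ _).trans
    (mul_le_mul_of_nonneg_left (max_le ?_ ?_) (norm_nonneg _))
  · exact h1.trans (mul_le_mul_of_nonneg_right (le_max_left _ _) (norm_nonneg _))
  · refine (pi_norm_le_iff_of_nonneg (mul_nonneg (le_max_of_le_right (by positivity))
      (norm_nonneg _))).2 fun a => (ContinuousLinearMap.le_opNorm _ _).trans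
        (mul_le_mul_of_nonneg_right ?_ (norm_nonneg _))
    exact ((norm_le_pi_norm (fun a => fderiv ℝ p y (e a y)) a).trans h2.le).trans (le_max_right _ _)

end frame

section man

open An Sob92

variable {E : Type} [NormedAddCommGroup E] [NormedSpace ℝ E] [FiniteDimensional ℝ E]
  [MeasurableSpace E] [BorelSpace E]
  {HM : Type} [TopologicalSpace HM] {I : ModelWithCorners ℝ E HM} [I.Boundaryless]
  {M : Type} [TopologicalSpace M] [ChartedSpace HM M] [IsManifold I ∞ M]
  [MeasurableSpace M] {ι : Type} [Fintype ι]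
  {V W : Type} [NormedAddCommGroup V] [InnerProductSpace ℝ V] [FiniteDimensional ℝ V]
  [NormedAddCommGroup W] [InnerProductSpace ℝ W]

/-- **Unique continuation on a manifold**, on a connected open set `O`. -/
theorem ucp_man (F : Fr I M ι) {O : Set M} (hO : IsOpen O) (hc : IsPreconnected O)
    {σ : ι → M → V →L[ℝ] W} (hσ : ∀ a, ContMDiffOn I 𝓘(ℝ, V →L[ℝ] W) ∞ (σ a) O)
    {p : M → V →L[ℝ] V} (hp : ContMDiffOn I 𝓘(ℝ, V →L[ℝ] V) ∞ p O)
    (idem : ∀ x ∈ O, ∀ v, p x (p x v) = p x v) (symm : ∀ x ∈ O, ∀ v w, ⟪p x v, w⟫ = ⟪v, p x w⟫)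
    (hcl : ∀ x ∈ O, ∀ a c v w,
      ⟪σ a x v, σ c x w⟫ + ⟪σ c x v, σ a x w⟫ = 2 * F.P a c x * ⟪p x v, w⟫)
    {u : M → V} (hu : ContMDiffOn I 𝓘(ℝ, V) ∞ u O) (hpu : ∀ x ∈ O, p x (u x) = u x)
    (hL : ∀ x ∈ O, ∃ C, ∀ᶠ y in 𝓝 x, ‖∑ a, σ a y (F.D a u y)‖ ≤ C * ‖u y‖)
    {y : M} (hy : y ∈ O) (h0 : u =ᶠ[𝓝 y] 0) : ∀ x ∈ O, u x = 0 := by
  intro _ hx
  refine (hc.subset_of_closure_inter_subset (u := {y | u =ᶠ[𝓝 y] 0})
    isOpen_setOfPred_eventually_nhds ⟨y, hy, h0⟩ (fun x₀ hz => ?_) hx).self_of_nhds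
  set φ := extChartAt I x₀ with hφ
  set Ω := φ.target ∩ φ.symm ⁻¹' O with hΩ
  have ho : IsOpen Ω :=
    (continuousOn_extChartAt_symm x₀).isOpen_inter_preimage (isOpen_extChartAt_target x₀) hO
  have hs : ∀ z ∈ Ω, φ.symm z ∈ (chartAt HM x₀).source := fun z hz => by
    simpa [hφ] using φ.map_target hz.1
  have sy : ∀ z ∈ Ω, ContMDiffAt 𝓘(ℝ, E) I ∞ φ.symm z := fun z hz =>
    (contMDiffOn_extChartAt_symm x₀).contMDiffAt ((isOpen_extChartAt_target x₀).mem_nhds hz.1)
  have loc : ∀ {N : Type} [NormedAddCommGroup N] [NormedSpace ℝ N] {f : M → N},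
      (∀ z ∈ Ω, ContMDiffAt I 𝓘(ℝ, N) ∞ f (φ.symm z)) → ContDiffOn ℝ 2 (f ∘ φ.symm) Ω :=
    fun hf z hz => (((hf z hz).comp z (sy z hz)).contDiffAt.of_le
      (WithTop.coe_le_coe.2 le_top : ((2 : ℕ∞) : WithTop ℕ∞) ≤ ∞)).contDiffWithinAt
  have loc' : ∀ {N : Type} [NormedAddCommGroup N] [NormedSpace ℝ N] {f : M → N},
      ContMDiffOn I 𝓘(ℝ, N) ∞ f O → ContDiffOn ℝ 2 (f ∘ φ.symm) Ω :=
    fun hf => loc fun z hz => hf.contMDiffAt (hO.mem_nhds hz.2)
  have hD : ∀ z ∈ Ω, ∀ a, F.D a u (φ.symm z) =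
      fderiv ℝ (u ∘ φ.symm) z (F.D a φ (φ.symm z)) := fun z hz a => by
    have h1 := (((loc' hu).contDiffAt (ho.mem_nhds hz)).differentiableAt two_ne_zero).hasFDerivAt
    rw [← φ.right_inv hz.1] at h1
    have := (of_chart_hasFDerivAt (hs z hz) h1).2 (F.e a)
    rwa [φ.right_inv hz.1] at this
  have hx₀ : φ x₀ ∈ Ω := ⟨mem_extChartAt_target x₀, by simpa [hφ] using hz.2⟩
  have key := ev_zero_frame ho (e := fun a => F.D a φ ∘ φ.symm) (P := fun a c => F.P a c ∘ φ.symm)
    (σ := fun a => σ a ∘ φ.symm) (p := p ∘ φ.symm) (u := u ∘ φ.symm)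
    (fun a => (loc fun z hz => dv_smoothAt (F.sm a _)
      (contMDiffAt_extChartAt' (hs z hz))).of_le (by norm_num))
    (fun z hz => by
      obtain ⟨L, hL⟩ := isInvertible_mfderiv_extChartAt (I := I) (φ.map_target hz.1)
      let L' : TangentSpace I (φ.symm z) ≃ₗ[ℝ] E := L.toLinearEquiv
      have h1 : (range fun a => (F.D a φ ∘ φ.symm) z) =
          L'.toLinearMap '' range fun a => F.e a (φ.symm z) := by
        rw [← range_comp]
        congr 1
        funext a
        exact (congrArg (fun T => T (F.e a (φ.symm z))) hL).symm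
      rw [h1, Submodule.span_image, F.span, Submodule.map_top, LinearEquiv.range])
    (fun z _ a => by
      have := congrArg (mfderiv I 𝓘(ℝ, E) φ (φ.symm z)) (F.P_e a (φ.symm z))
      rw [map_sum] at this
      simp only [map_smul] at this
      exact this)
    (fun a => (loc' (hσ a)).of_le (by norm_num)) ((loc' hp).of_le (by norm_num))
    (fun z hz => idem _ hz.2) (fun z hz => symm _ hz.2) (fun z hz => hcl _ hz.2) (loc' hu)
    (fun z hz => hpu _ hz.2)
    (fun z hz => by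
      obtain ⟨C, hC⟩ := hL _ hz.2
      refine ⟨C, ?_⟩
      filter_upwards [(sy z hz).continuousAt.tendsto.eventually hC, ho.mem_nhds hz] with w h1 h2
      simpa only [hD w h2, Function.comp] using h1)
    hx₀ (by
      refine ContinuousWithinAt.mem_closure (f := φ) (s := {y | u =ᶠ[𝓝 y] 0} ∩ φ.source)
        (continuousAt_extChartAt x₀).continuousWithinAt ?_ ?_
      · exact (isOpen_extChartAt_source (I := I) x₀).closure_inter ⟨hz.1, mem_extChartAt_source x₀⟩
      · intro w hw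
        have h1 := continuousAt_extChartAt_symm' hw.2
        refine h1.tendsto.eventually (p := fun x => u x = 0) ?_
        rw [φ.left_inv hw.2]
        exact hw.1)
  filter_upwards [(continuousAt_extChartAt x₀).tendsto.eventually key,
    extChartAt_source_mem_nhds (I := I) x₀] with w h1 h2
  exact (congrArg u (φ.left_inv h2)).symm.trans h1

/-- the same for a good operator of Dirac type: solutions of `|A u| ≤ C |u|` -/
theorem ucp_op (F : Fr I M ι) (A : An.Op M ι V W) {C : ℕ → ℝ} (hA : A.Good F C)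
    (hcl : A.CliffL F) {O : Set M} (hO : IsOpen O) (hc : IsPreconnected O) {u : M → V}
    (hu : ContMDiffOn I 𝓘(ℝ, V) ∞ u O) (hpu : ∀ x ∈ O, A.p x (u x) = u x)
    (hL : ∀ x ∈ O, ∃ K, ∀ᶠ y in 𝓝 x, ‖A.app F u y‖ ≤ K * ‖u y‖)
    {y : M} (hy : y ∈ O) (h0 : u =ᶠ[𝓝 y] 0) : ∀ x ∈ O, u x = 0 := by
  refine ucp_man F hO hc (fun a => (hA.σ a).1.contMDiffOn) hA.p.cb.1.contMDiffOn
    (fun x _ => hA.p.idem x) (fun x _ => hA.p.symm x) (fun x _ a c => hcl a c x) hu hpu
    (fun x hx => ?_) hy h0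
  obtain ⟨K, hK⟩ := hL x hx
  refine ⟨K + C 0, hK.mono fun z hz => ?_⟩
  have h1 : ∑ a, A.σ a z (F.D a u z) = A.app F u z - A.B z (u z) := by simp [Op.app, Pre.op]
  have h2 := ((A.B z).le_opNorm (u z)).trans
    (mul_le_mul_of_nonneg_right (hA.B.2 0 [] le_rfl z) (norm_nonneg _))
  rw [h1]
  linarith [norm_sub_le (A.app F u z) (A.B z (u z))]

end man

end Crest.Agent.X212.Ucp64
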