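import Mathlib

/-!
# Agmon–Nirenberg logarithmic convexity (format free)

`N = |z|²`, `Q = ⟨L z, z⟩`.  If `z' + L z = f`, `|f| ≤ C |z|` and `L` is symmetric (with controlled
time derivative) then `z` cannot vanish at one time without vanishing identically.
-/

namespace Crest.Agent.X212.Ucp64

open Set

/-- Forward part, scalar form. -/
theorem pos_fwd {a b K : ℝ} {N Q N' Q' : ℝ → ℝ} (hK : 0 ≤ K)
    (hc : ContinuousOn N (Icc a b))
    (hN : ∀ t ∈ Ioo a b, HasDerivAt N (N' t) t) (hQ : ∀ t ∈ Ioo a b, HasDerivAt Q (Q' t) t)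
    (h1 : ∀ t ∈ Ioo a b, 0 < N t → -2 * Q t - K * N t ≤ N' t)
    (h2 : ∀ t ∈ Ioo a b, 0 < N t → N t * Q' t - Q t * N' t ≤ K * (N t ^ 2 + |Q t| * N t))
    (ha : 0 < N a) : ∀ t ∈ Icc a b, 0 < N t := by
  by_contra hcon
  push Not at hcon
  obtain ⟨t0, ht0, hN0⟩ := hcon
  set S : Set ℝ := Icc a b ∩ N ⁻¹' Iic 0 with hS
  have hSc : IsClosed S := hc.preimage_isClosed_of_isClosed isClosed_Icc isClosed_Iic
  have hSk : IsCompact S := isCompact_Icc.of_isClosed_subset hSc inter_subset_left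
  obtain ⟨t1, ht1, hmin⟩ := hSk.exists_isLeast ⟨t0, ht0, hN0⟩
  have h1a : a < t1 := by
    rcases ht1.1.1.eq_or_lt with h | h
    · exfalso; have := ht1.2; rw [← h] at this; exact absurd ha (not_lt.2 this)
    · exact h
  have hpos : ∀ t, a ≤ t → t < t1 → 0 < N t := by
    intro t h h'
    by_contra hh
    exact absurd (hmin ⟨⟨h, h'.le.trans ht1.1.2⟩, not_lt.1 hh⟩) (not_le.2 h')
  set c := (a + t1) / 2 with hcdef
  have hac : a < c := by rw [hcdef]; linarith
  have hct : c < t1 := by rw [hcdef]; linarith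
  have hin : ∀ t, c ≤ t → t < t1 → t ∈ Ioo a b := fun t h h' =>
    ⟨hac.trans_le h, h'.trans_le ht1.1.2⟩
  set A := |Q c / N c| + 1 with hA
  have hA1 : 1 ≤ A := by rw [hA]; linarith [abs_nonneg (Q c / N c)]
  set B : ℝ → ℝ := fun t => A * Real.exp (2 * (K + 1) * (t - c)) with hB
  have hBd : ∀ t, HasDerivAt B (2 * (K + 1) * B t) t := by
    intro t
    have := ((((hasDerivAt_id t).sub_const c).const_mul (2 * (K + 1))).exp).const_mul A
    exact this.congr_deriv (by simp only [hB, id]; ring)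
  have hl : ∀ t, c ≤ t → t < t1 →
      HasDerivAt (fun s => Q s / N s) ((Q' t * N t - Q t * N' t) / N t ^ 2) t := fun t h h' =>
    (hQ t (hin t h h')).div (hN t (hin t h h')) (hpos t (hac.le.trans h) h').ne'
  -- the frequency function is bounded above
  have hfreq : ∀ s, c ≤ s → s < t1 → Q s / N s ≤ B s := by
    intro s hs hs'
    refine image_le_of_deriv_right_lt_deriv_boundary (f := fun s => Q s / N s)
      (f' := fun t => (Q' t * N t - Q t * N' t) / N t ^ 2) (a := c) (b := s)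
      (fun t ht => (hl t ht.1 (ht.2.trans_lt hs')).continuousAt.continuousWithinAt)
      (fun t ht => (hl t ht.1 (ht.2.trans hs')).hasDerivWithinAt) (B := B)
      (B' := fun t => 2 * (K + 1) * B t) ?_ hBd ?_ ⟨hs, le_rfl⟩
    · simp only [hB, sub_self, mul_zero, Real.exp_zero, mul_one, hA]
      linarith [le_abs_self (Q c / N c)]
    · intro t ht he
      have ht' : t < t1 := ht.2.trans hs'
      have hp := hpos t (hac.le.trans ht.1) ht'
      have hB1 : 1 ≤ B t := by
        have : 1 ≤ Real.exp (2 * (K + 1) * (t - c)) :=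
          Real.one_le_exp (mul_nonneg (by linarith) (by linarith [ht.1]))
        simp only [hB]; nlinarith
      have hq : Q t = B t * N t := by rw [← he]; field_simp
      have h := h2 t (hin t ht.1 ht') hp
      rw [div_lt_iff₀ (by positivity)]
      have habs : |Q t| = B t * N t := by rw [hq, abs_of_nonneg (by positivity)]
      rw [habs] at h
      have hsq : 0 < N t ^ 2 := by positivity
      have : K * (N t ^ 2 + B t * N t * N t) < 2 * (K + 1) * B t * N t ^ 2 := by
        have e1 : K * N t ^ 2 ≤ K * (B t * N t ^ 2) :=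
          mul_le_mul_of_nonneg_left (by nlinarith) hK
        nlinarith [mul_pos (by linarith : (0:ℝ) < B t) hsq]
      linarith
  set M := B t1 with hM
  have hBM : ∀ s, s ≤ t1 → B s ≤ M := by
    intro s hs
    simp only [hM, hB]
    exact mul_le_mul_of_nonneg_left (Real.exp_le_exp.2 (by nlinarith)) (by linarith)
  set G : ℝ → ℝ := fun t => N t * Real.exp ((2 * M + K) * t) with hG
  have hGd : ∀ t ∈ Ioo c t1, HasDerivAt G
      ((N' t + (2 * M + K) * N t) * Real.exp ((2 * M + K) * t)) t := by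
    intro t ht
    have := (hN t (hin t ht.1.le ht.2)).mul (((hasDerivAt_id t).const_mul (2 * M + K)).exp)
    exact this.congr_deriv (by simp only [id]; ring)
  have hmono : MonotoneOn G (Icc c t1) := by
    refine monotoneOn_of_deriv_nonneg (convex_Icc c t1) ?_ ?_ ?_
    · exact (hc.mono (Icc_subset_Icc hac.le ht1.1.2)).mul (by fun_prop)
    · rw [interior_Icc]; exact fun t ht => (hGd t ht).differentiableAt.differentiableWithinAt
    · rw [interior_Icc]
      intro t ht
      rw [(hGd t ht).deriv]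
      refine mul_nonneg ?_ (Real.exp_pos _).le
      have hp := hpos t (hac.le.trans ht.1.le) ht.2
      have e1 := h1 t (hin t ht.1.le ht.2) hp
      have e2 := (hfreq t ht.1.le ht.2).trans (hBM t ht.2.le)
      rw [div_le_iff₀ hp] at e2
      nlinarith
  have h3 := hmono ⟨le_rfl, hct.le⟩ ⟨hct.le, le_rfl⟩ hct.le
  have h4 : 0 < G c := mul_pos (hpos c hac.le hct) (Real.exp_pos _)
  have h5 : G t1 ≤ 0 := mul_nonpos_of_nonpos_of_nonneg ht1.2 (Real.exp_pos _).le
  linarith

/-- Two sided scalar form: `N ≥ 0` vanishing at one time vanishes on the whole interval. -/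
theorem zero_of_scalar {a b K : ℝ} {N Q N' Q' : ℝ → ℝ} (hK : 0 ≤ K)
    (hc : ContinuousOn N (Icc a b)) (h0 : ∀ t ∈ Icc a b, 0 ≤ N t)
    (hN : ∀ t ∈ Ioo a b, HasDerivAt N (N' t) t) (hQ : ∀ t ∈ Ioo a b, HasDerivAt Q (Q' t) t)
    (h1 : ∀ t ∈ Ioo a b, 0 < N t → |N' t + 2 * Q t| ≤ K * N t)
    (h2 : ∀ t ∈ Ioo a b, 0 < N t → N t * Q' t - Q t * N' t ≤ K * (N t ^ 2 + |Q t| * N t))
    {t0 : ℝ} (ht0 : t0 ∈ Icc a b) (hz : N t0 = 0) : ∀ t ∈ Icc a b, N t = 0 := by
  intro t ht
  by_contra hne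
  have hp : 0 < N t := lt_of_le_of_ne (h0 t ht) (Ne.symm hne)
  rcases le_total t t0 with h | h
  · have hsub : Ioo t b ⊆ Ioo a b := Ioo_subset_Ioo ht.1 le_rfl
    have := pos_fwd (a := t) (b := b) hK (hc.mono (Icc_subset_Icc ht.1 le_rfl))
      (fun s hs => hN s (hsub hs)) (fun s hs => hQ s (hsub hs))
      (fun s hs hs' => by have := (abs_le.1 (h1 s (hsub hs) hs')).1; linarith)
      (fun s hs => h2 s (hsub hs)) hp t0 ⟨h, ht0.2⟩
    linarith
  · have hsub : ∀ s ∈ Ioo (-t) (-a), -s ∈ Ioo a b := fun s hs =>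
      ⟨by linarith [hs.2], by linarith [hs.1, ht.2]⟩
    have := pos_fwd (a := -t) (b := -a) (N := fun s => N (-s)) (Q := fun s => -Q (-s))
      (N' := fun s => -N' (-s)) (Q' := fun s => Q' (-s)) hK
      (hc.comp continuous_neg.continuousOn fun s hs =>
        ⟨by linarith [hs.2], by linarith [hs.1, ht.2]⟩)
      (fun s hs => by
        have := (hN _ (hsub s hs)).comp s (hasDerivAt_neg s)
        exact this.congr_deriv (by ring))
      (fun s hs => by
        have := ((hQ _ (hsub s hs)).comp s (hasDerivAt_neg s)).neg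
        exact this.congr_deriv (by ring))
      (fun s hs hs' => by have := (abs_le.1 (h1 _ (hsub s hs) hs')).2; linarith)
      (fun s hs hs' => by
        have := h2 _ (hsub s hs) hs'
        rw [abs_neg]; linarith)
      (by simpa using hp) (-t0) ⟨by linarith, by linarith [ht0.1]⟩
    simp only [neg_neg] at this
    linarith

/-- The algebra behind log-convexity, in terms of the Gram numbers of `z, w, f`. -/
theorem gram_ineq {C zz ww ff zw zf wf r0 r : ℝ} (hC : 0 ≤ C) (hz : 0 < zz)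
    (hP : zw ^ 2 ≤ zz * ww) (hzf : zf ^ 2 ≤ zz * ff)
    (hu : (zz * wf - zw * zf) ^ 2 ≤ zz * (zz * ww - zw ^ 2) * ff)
    (hf : ff ≤ C ^ 2 * zz) (hr0 : |r0| ≤ C * zz) (hr : r ^ 2 ≤ C ^ 2 * (ww + zz) * zz) :
    |(2 * (zf - zw) + r0) + 2 * zw| ≤ (2 * C ^ 2 + 3 * C) * zz ∧
    zz * (2 * (wf - ww) + r) - zw * (2 * (zf - zw) + r0)
      ≤ (2 * C ^ 2 + 3 * C) * (zz ^ 2 + |zw| * zz) := by
  have hzf' : |zf| ≤ C * zz := by
    apply abs_le_of_sq_le_sq' _ (by positivity) |> abs_le.2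
    nlinarith
  constructor
  · have : 2 * (zf - zw) + r0 + 2 * zw = 2 * zf + r0 := by ring
    rw [this]
    have := abs_add_le (2 * zf) r0
    rw [abs_mul, abs_two] at this
    nlinarith [sq_nonneg C]
  · set P := zz * ww - zw ^ 2 with hPd
    have hP0 : 0 ≤ P := by rw [hPd]; linarith
    set u := zz * wf - zw * zf with hud
    have e1 : 2 * u ≤ P + C ^ 2 * zz ^ 2 := by
      have : u ^ 2 ≤ P * (C ^ 2 * zz ^ 2) := by
        have : zz * P * ff ≤ zz * P * (C ^ 2 * zz) := mul_le_mul_of_nonneg_left hf (by positivity)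
        nlinarith
      have h2 : (2 * u) ^ 2 ≤ (P + C ^ 2 * zz ^ 2) ^ 2 := by
        nlinarith [sq_nonneg (P - C ^ 2 * zz ^ 2)]
      exact (abs_le_of_sq_le_sq' h2 (by positivity)).2
    have e2 : zz * r ≤ P + C ^ 2 * zz ^ 2 + C * |zw| * zz + C * zz ^ 2 := by
      have hr' : r ^ 2 ≤ C ^ 2 * (P + |zw| ^ 2 + zz ^ 2) := by
        rw [sq_abs, hPd]; nlinarith
      have h2 : (zz * r) ^ 2 ≤ (P + C ^ 2 * zz ^ 2 + C * |zw| * zz + C * zz ^ 2) ^ 2 := by
        have a1 : (zz * r) ^ 2 ≤ zz ^ 2 * (C ^ 2 * (P + |zw| ^ 2 + zz ^ 2)) := by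
          rw [mul_pow]; exact mul_le_mul_of_nonneg_left hr' (by positivity)
        have a2 : 0 ≤ C ^ 2 * zz ^ 2 := by positivity
        have a3 : 0 ≤ C * |zw| * zz := by positivity
        have a4 : 0 ≤ C * zz ^ 2 := by positivity
        set p := C ^ 2 * zz ^ 2
        set q := C * |zw| * zz with hq
        set s := C * zz ^ 2 with hs
        have a5 : zz ^ 2 * (C ^ 2 * (P + |zw| ^ 2 + zz ^ 2)) = p * P + q ^ 2 + s ^ 2 := by
          rw [hq, hs]; simp only [p]; ring
        rw [a5] at a1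
        nlinarith [mul_nonneg hP0 a2, mul_nonneg hP0 a3, mul_nonneg hP0 a4, mul_nonneg a2 a3,
          mul_nonneg a2 a4, mul_nonneg a3 a4, sq_nonneg P, sq_nonneg p]
      exact (abs_le_of_sq_le_sq' h2 (by positivity)).2
    have e3 : -(zw * r0) ≤ C * |zw| * zz := by
      have := neg_abs_le (zw * r0)
      rw [abs_mul] at this
      nlinarith [mul_le_mul_of_nonneg_left hr0 (abs_nonneg zw)]
    have e4 : zz * (2 * (wf - ww) + r) - zw * (2 * (zf - zw) + r0)
        = 2 * u - 2 * P + zz * r - zw * r0 := by rw [hud, hPd]; ring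
    rw [e4]
    have a3 : 0 ≤ C * |zw| * zz := by positivity
    have a4 : 0 ≤ C * zz ^ 2 := by positivity
    have a5 : 0 ≤ C ^ 2 * (|zw| * zz) := by positivity
    nlinarith

section Form

variable {V : Type*} [AddCommGroup V] [Module ℝ V]

/-- Cauchy–Schwarz for a nonnegative symmetric bilinear form. -/
theorem form_cs (B : V →ₗ[ℝ] V →ₗ[ℝ] ℝ) (hs : ∀ x y, B x y = B y x) (hp : ∀ x, 0 ≤ B x x)
    (x y : V) : B x y ^ 2 ≤ B x x * B y y := by
  have h : ∀ t : ℝ, 0 ≤ B x x * (t * t) + 2 * B x y * t + B y y := by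
    intro t
    have := hp (t • x + y)
    simp only [map_add, map_smul, LinearMap.add_apply, LinearMap.smul_apply, smul_eq_mul] at this
    rw [hs y x] at this
    linarith
  have := discrim_le_zero h
  rw [discrim] at this
  nlinarith

/-- **Agmon–Nirenberg**, for a (possibly time dependent) nonnegative symmetric form `B t` on any
vector space (for instance `∫_Y ⟨·,·⟩` on smooth sections).  `w t` plays the role of `L (z t)`,
`f t - w t` the role of `z'`. -/
theorem zero_of_form {a b C : ℝ} (hC : 0 ≤ C) (B : ℝ → V →ₗ[ℝ] V →ₗ[ℝ] ℝ)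
    (hs : ∀ t x y, B t x y = B t y x) (hp : ∀ t x, 0 ≤ B t x x)
    {z w f : ℝ → V} {r0 r : ℝ → ℝ}
    (hc : ContinuousOn (fun t => B t (z t) (z t)) (Icc a b))
    (hN : ∀ t ∈ Ioo a b, HasDerivAt (fun s => B s (z s) (z s))
      (2 * B t (z t) (f t - w t) + r0 t) t)
    (hQ : ∀ t ∈ Ioo a b, HasDerivAt (fun s => B s (z s) (w s))
      (2 * B t (w t) (f t - w t) + r t) t)
    (hf : ∀ t ∈ Ioo a b, B t (f t) (f t) ≤ C ^ 2 * B t (z t) (z t))
    (hr0 : ∀ t ∈ Ioo a b, |r0 t| ≤ C * B t (z t) (z t))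
    (hr : ∀ t ∈ Ioo a b, r t ^ 2 ≤ C ^ 2 * (B t (w t) (w t) + B t (z t) (z t)) * B t (z t) (z t))
    {t0 : ℝ} (ht0 : t0 ∈ Icc a b) (hz : B t0 (z t0) (z t0) = 0) :
    ∀ t ∈ Icc a b, B t (z t) (z t) = 0 := by
  have key : ∀ t ∈ Ioo a b, 0 < B t (z t) (z t) → _ := fun t ht h =>
    gram_ineq (wf := B t (w t) (f t)) hC h (form_cs (B t) (hs t) (hp t) (z t) (w t))
      (form_cs (B t) (hs t) (hp t) (z t) (f t))
      (by
        have := form_cs (B t) (hs t) (hp t)
          (B t (z t) (z t) • w t - B t (z t) (w t) • z t) (f t)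
        simp only [map_sub, map_smul, LinearMap.sub_apply, LinearMap.smul_apply,
          smul_eq_mul] at this
        rw [hs t (w t) (z t)] at this
        refine this.trans (le_of_eq ?_)
        ring)
      (hf t ht) (hr0 t ht) (hr t ht)
  refine zero_of_scalar (K := 2 * C ^ 2 + 3 * C) (by positivity) hc (fun t _ => hp t _) hN hQ
    (fun t ht h => ?_) (fun t ht h => ?_) ht0 hz
  · simpa only [map_sub] using (key t ht h).1
  · simpa only [map_sub] using (key t ht h).2

end Form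

section Hilbert

open scoped RealInnerProductSpace

variable {H : Type*} [NormedAddCommGroup H] [InnerProductSpace ℝ H]

/-- **Agmon–Nirenberg** in a real inner product space. -/
theorem zero_of_hilbert {a b C : ℝ} (hC : 0 ≤ C) {z w f : ℝ → H} {r : ℝ → ℝ}
    (hc : ContinuousOn z (Icc a b))
    (hz : ∀ t ∈ Ioo a b, HasDerivAt z (f t - w t) t)
    (hQ : ∀ t ∈ Ioo a b, HasDerivAt (fun s => ⟪z s, w s⟫) (2 * ⟪w t, f t - w t⟫ + r t) t)
    (hf : ∀ t ∈ Ioo a b, ‖f t‖ ≤ C * ‖z t‖)
    (hr : ∀ t ∈ Ioo a b, |r t| ≤ C * (‖w t‖ + ‖z t‖) * ‖z t‖)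
    {t0 : ℝ} (ht0 : t0 ∈ Icc a b) (h0 : z t0 = 0) : ∀ t ∈ Icc a b, z t = 0 := by
  intro t ht
  have := zero_of_form (C := 2 * C) (by positivity) (fun _ => innerₗ H)
    (fun _ x y => by simp [real_inner_comm]) (fun _ x => by simp)
    (z := z) (w := w) (f := f) (r0 := fun _ => 0) (r := r)
    (by simpa using hc.inner (𝕜 := ℝ) hc)
    (fun t ht => by
      have := (hz t ht).inner ℝ (hz t ht)
      simp only [innerₗ_apply_apply]
      exact this.congr_deriv (by rw [real_inner_comm (z t) (f t - w t)]; ring))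
    (fun t ht => by simpa only [innerₗ_apply_apply] using hQ t ht)
    (fun t ht => by
      simp only [innerₗ_apply_apply, real_inner_self_eq_norm_sq]
      have := pow_le_pow_left₀ (norm_nonneg _) (hf t ht) 2
      nlinarith [sq_nonneg (C * ‖z t‖)])
    (fun t _ => by simp only [innerₗ_apply_apply, real_inner_self_eq_norm_sq, abs_zero]; positivity)
    (fun t ht => by
      simp only [innerₗ_apply_apply, real_inner_self_eq_norm_sq]
      have h1 := pow_le_pow_left₀ (abs_nonneg _) (hr t ht) 2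
      rw [sq_abs] at h1
      have h2 : (‖w t‖ + ‖z t‖) ^ 2 ≤ 4 * (‖w t‖ ^ 2 + ‖z t‖ ^ 2) := by
        nlinarith [sq_nonneg (‖w t‖ - ‖z t‖), sq_nonneg ‖w t‖, sq_nonneg ‖z t‖]
      have h3 := mul_le_mul_of_nonneg_left h2 (by positivity : 0 ≤ C ^ 2 * ‖z t‖ ^ 2)
      nlinarith)
    ht0 (by simp [h0]) t ht
  simpa using this

/-- Version with a fixed symmetric operator `L` on a dense (or any) subspace carried by a normed
space `D` (`ι : D → H` the inclusion): `z` is differentiable as a curve in `D`. -/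
theorem zero_of_symm {D : Type*} [NormedAddCommGroup D] [NormedSpace ℝ D] (ι L : D →L[ℝ] H)
    (hL : ∀ x y, ⟪L x, ι y⟫ = ⟪ι x, L y⟫) {a b C : ℝ} (hC : 0 ≤ C) {z z' : ℝ → D}
    (hc : ContinuousOn (fun t => ι (z t)) (Icc a b))
    (hz : ∀ t ∈ Ioo a b, HasDerivAt z (z' t) t)
    (hf : ∀ t ∈ Ioo a b, ‖ι (z' t) + L (z t)‖ ≤ C * ‖ι (z t)‖)
    {t0 : ℝ} (ht0 : t0 ∈ Icc a b) (h0 : ι (z t0) = 0) : ∀ t ∈ Icc a b, ι (z t) = 0 := by
  refine zero_of_hilbert hC (w := fun t => L (z t)) (f := fun t => ι (z' t) + L (z t))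
    (r := fun _ => 0) hc (fun t ht => ?_) (fun t ht => ?_) hf
    (fun t _ => by simp only [abs_zero]; positivity) ht0 h0
  · exact (ι.hasFDerivAt.comp_hasDerivAt t (hz t ht)).congr_deriv (by simp)
  · have := (ι.hasFDerivAt.comp_hasDerivAt t (hz t ht)).inner ℝ
      (L.hasFDerivAt.comp_hasDerivAt t (hz t ht))
    refine this.congr_deriv ?_
    simp only [Function.comp, add_sub_cancel_right, add_zero]
    rw [← hL (z t) (z' t), real_inner_comm (L (z t)) (ι (z' t))]; ring

end Hilbert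

end Crest.Agent.X212.Ucp64
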