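import Crest.Agent.X212.Ucp64.Ibp

/-!
# Carleman estimate for Dirac type systems
-/

namespace Crest.Agent.X212.Ucp64

open Set MeasureTheory Filter Topology
open scoped RealInnerProductSpace

variable {E : Type*} [NormedAddCommGroup E] [NormedSpace ℝ E]
  {V W : Type*} [NormedAddCommGroup V] [InnerProductSpace ℝ V]
  [NormedAddCommGroup W] [InnerProductSpace ℝ W] {ι : Type*} [Fintype ι] {Ω K : Set E}

/-- A Dirac type symbol on `Ω`: `s_i^t s_j + s_j^t s_i = 2 g_ij`, `g` positive definite.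
(`W` may be bigger than `V`: the gradient is allowed.) -/
structure Op (Ω : Set E) (s : ι → E → V →L[ℝ] W) (g : ι → ι → E → ℝ) : Prop where
  hs : ∀ i, ContDiffOn ℝ 1 (s i) Ω
  hg : ∀ i j, ContDiffOn ℝ 1 (g i j) Ω
  cl : ∀ x ∈ Ω, Cl (fun i => s i x) (fun i j => g i j x)
  pos : ∀ x ∈ Ω, ∀ ξ : ι → ℝ, ξ ≠ 0 → 0 < ∑ i, ∑ j, g i j x * (ξ i * ξ j)

theorem Op.mono {s : ι → E → V →L[ℝ] W} {g : ι → ι → E → ℝ} (h : Op Ω s g) {Ω' : Set E}
    (h' : Ω' ⊆ Ω) : Op Ω' s g :=
  ⟨fun i => (h.hs i).mono h', fun i j => (h.hg i j).mono h', fun x hx => h.cl x (h' hx),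
    fun x hx => h.pos x (h' hx)⟩

theorem Op.unif {s : ι → E → V →L[ℝ] W} {g : ι → ι → E → ℝ} (h : Op Ω s g) (hK : IsCompact K)
    (hKΩ : K ⊆ Ω) : ∃ c > 0, ∀ x ∈ K, ∀ ξ : ι → ℝ,
      c * ∑ i, ξ i ^ 2 ≤ ∑ i, ∑ j, g i j x * (ξ i * ξ j) := by
  have hS : IsCompact {ξ : ι → ℝ | ∑ i, ξ i ^ 2 = 1} := by
    refine (isCompact_closedBall (0 : ι → ℝ) 1).of_isClosed_subset
      (isClosed_eq (by fun_prop) continuous_const) fun ξ hξ => ?_
    rw [mem_closedBall_zero_iff, pi_norm_le_iff_of_nonneg zero_le_one]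
    intro i
    have := Finset.single_le_sum (f := fun i => ξ i ^ 2) (fun _ _ => sq_nonneg _)
      (Finset.mem_univ i)
    rw [show ∑ i, ξ i ^ 2 = 1 from hξ] at this
    exact (sq_le_one_iff_abs_le_one _).1 this
  obtain ⟨c, hc, h1⟩ := (hK.prod hS).exists_forall_le' (a := 0)
    (f := fun z : E × (ι → ℝ) => ∑ i, ∑ j, g i j z.1 * (z.2 i * z.2 j))
    (continuousOn_finsetSum _ fun i _ => continuousOn_finsetSum _ fun j _ =>
      (((h.hg i j).continuousOn.mono hKΩ).comp continuousOn_fst fun z hz => hz.1).mul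
        (by fun_prop))
    (fun z hz => h.pos z.1 (hKΩ hz.1) z.2 fun h0 => by
      have : ∑ i, z.2 i ^ 2 = 1 := hz.2
      simp [h0] at this)
  refine ⟨c, hc, fun x hx ξ => ?_⟩
  have hn : 0 ≤ ∑ i, ξ i ^ 2 := Finset.sum_nonneg fun _ _ => sq_nonneg _
  rcases hn.eq_or_lt with h0 | h0
  · have : ∀ i, ξ i = 0 := fun i => pow_eq_zero_iff (two_ne_zero) |>.1
      ((Finset.sum_eq_zero_iff_of_nonneg fun _ _ => sq_nonneg _).1 h0.symm i (Finset.mem_univ i))
    simp [this]
  · set r := √(∑ i, ξ i ^ 2) with hr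
    have hr0 : 0 < r := Real.sqrt_pos.2 h0
    have hr2 : r ^ 2 = ∑ i, ξ i ^ 2 := Real.sq_sqrt hn
    have := h1 (x, fun i => ξ i / r) ⟨hx, by
      show ∑ i, (ξ i / r) ^ 2 = 1
      simp only [div_pow, ← Finset.sum_div, ← hr2]; field_simp⟩
    have e : ∑ i, ∑ j, g i j x * (ξ i / r * (ξ j / r)) =
        (∑ i, ∑ j, g i j x * (ξ i * ξ j)) / r ^ 2 := by
      rw [Finset.sum_div]
      refine Finset.sum_congr rfl fun i _ => ?_
      rw [Finset.sum_div]
      exact Finset.sum_congr rfl fun j _ => by field_simp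
    simp only [e] at this
    rw [le_div_iff₀ (by positivity), hr2] at this
    exact this

theorem carl_alg {c0 q0 Q D C1 C2 T lam a bb mm : ℝ} 
    (hC1 : 0 ≤ C1) (hC2 : 0 ≤ C2) (ha : 0 ≤ a) (hmm : 0 ≤ mm)
    (hT : T * (D + 8 * C2 * Q + 2 * C2 / c0) ≤ q0 / 2) (hlam : 0 ≤ lam) (hlT : 1 ≤ lam * T)
    (h1 : c0 / 2 * bb ≤ 2 * mm + 2 * (lam * T) ^ 2 * Q * a + C1 * a)
    (h2 : lam * (q0 - T * D) * a
      - 2 * (C2 * (c0 / (lam * T) * bb + (c0 / (lam * T))⁻¹ * a)) ≤ mm) :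
    (q0 / (2 * (1 + 8 * C2)) * lam - 4 * C2 * C1 / (1 + 8 * C2)) * a ≤ mm := by
  set u := lam * T with hu
  have hu0 : 0 < u := by linarith
  have e1 : c0 / u * bb ≤ 4 * mm + 4 * u * Q * a + 2 * C1 * a := by
    rw [div_mul_eq_mul_div, div_le_iff₀ hu0]
    have f1 : 4 * mm ≤ 4 * mm * u := by nlinarith
    have f2 : 2 * C1 * a ≤ 2 * C1 * a * u := by nlinarith [mul_nonneg hC1 ha]
    nlinarith
  have e2 := mul_le_mul_of_nonneg_left e1 hC2
  have e3 : (c0 / u)⁻¹ = u / c0 := by rw [inv_div]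
  rw [e3] at h2
  have e4 := mul_le_mul_of_nonneg_left hT (mul_nonneg hlam ha)
  have e5 : lam * a * (T * (D + 8 * C2 * Q + 2 * C2 / c0)) =
      lam * (T * D) * a + 8 * C2 * u * Q * a + 2 * C2 * (u / c0 * a) := by rw [hu]; ring
  have e6 : (q0 / 2 * lam - 4 * C2 * C1) * a ≤ (1 + 8 * C2) * mm := by nlinarith
  have e7 : (q0 / (2 * (1 + 8 * C2)) * lam - 4 * C2 * C1 / (1 + 8 * C2)) * a =
      (q0 / 2 * lam - 4 * C2 * C1) * a / (1 + 8 * C2) := by field_simp
  rw [e7, div_le_iff₀ (by positivity)]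
  linarith

theorem cd_smul {F : Type*} [NormedAddCommGroup F] [NormedSpace ℝ F] {f : E → ℝ} {u : E → F}
    (hf : ContDiffOn ℝ 1 f Ω) (hu : ContDiffOn ℝ 1 u Ω) : ContDiffOn ℝ 1 (fun x => f x • u x) Ω :=
  hf.smul hu

variable [FiniteDimensional ℝ E] [MeasurableSpace E] [BorelSpace E] [FiniteDimensional ℝ V]

/-- **Carleman estimate** with weight `exp (lam (T - φ)² / 2)` on the shell `0 ≤ φ ≤ T`. -/
theorem carleman (μ : Measure E) [μ.IsAddHaarMeasure] (hΩ : IsOpen Ω) (hK : IsCompact K)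
    (hKΩ : K ⊆ Ω) (b : ι → E) {s : ι → E → V →L[ℝ] W} {g : ι → ι → E → ℝ} (h : Op Ω s g)
    {φ : E → ℝ} (hφ : ContDiffOn ℝ 2 φ Ω) (hφ' : ∀ x ∈ Ω, (fun i => fderiv ℝ φ x (b i)) ≠ 0) :
    ∃ T0 > 0, ∃ c > 0, ∃ C, ∀ T, 0 < T → T ≤ T0 → ∀ lam, 1 ≤ lam * T → ∀ v : E → V,
      ContDiffOn ℝ 2 v Ω → (∀ x ∈ Ω, x ∉ K → v x = 0) → (∀ x ∈ K, v x ≠ 0 → 0 ≤ φ x ∧ φ x ≤ T) →
      (c * lam - C) * ∫ x in K, ‖v x‖ ^ 2 ∂μ ≤
        ∫ x in K, ‖∑ i, s i x (fderiv ℝ v x (b i))
          + (lam * (T - φ x)) • ∑ k, fderiv ℝ φ x (b k) • s k x (v x)‖ ^ 2 ∂μ := by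
  set p : ι → E → ℝ := fun k x => fderiv ℝ φ x (b k) with hp
  have pd : ∀ k, ContDiffOn ℝ 1 (p k) Ω := fun k => cd_dir hΩ hφ (b k)
  set a : ι → E → ℝ := fun j x => ∑ k, p k x * g k j x with ha
  have ad : ∀ j, ContDiffOn ℝ 1 (a j) Ω := fun j =>
    ContDiffOn.sum fun k _ => (pd k).mul (h.hg k j)
  set q : E → ℝ := fun x => ∑ j, p j x * a j x with hq
  have qd : ContDiffOn ℝ 1 q Ω := ContDiffOn.sum fun j _ => (pd j).mul (ad j)
  have qpos : ∀ x ∈ Ω, 0 < q x := fun x hx => by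
    refine (h.pos x hx _ (hφ' x hx)).trans_eq ?_
    rw [Finset.sum_comm]
    refine Finset.sum_congr rfl fun j _ => ?_
    simp only [ha, Finset.mul_sum]
    exact Finset.sum_congr rfl fun k _ => by simp only [hp]; ring
  obtain ⟨c0, hc0, hc⟩ := h.unif hK hKΩ
  obtain ⟨q0, hq0, hql⟩ := hK.exists_forall_le' (qd.continuousOn.mono hKΩ)
    fun x hx => qpos x (hKΩ hx)
  obtain ⟨Q, hQ⟩ := bdd_on hK (qd.continuousOn.mono hKΩ)
  have dvc : ContinuousOn (fun x => ∑ j, fderiv ℝ (a j) x (b j)) Ω :=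
    continuousOn_finsetSum _ fun j _ => co_dir hΩ (ad j) (b j)
  obtain ⟨D, hD⟩ := bdd_on hK (dvc.mono hKΩ)
  obtain ⟨C1, hC1, H1⟩ := skew_sum μ hΩ hK hKΩ b
    (T := fun i j x => bf (s i x) (s j x) (g i j x))
    (fun i j => bf_cd (h.hs i) (h.hs j) (h.hg i j)) fun i j x hx => (h.cl x hx).skew i j
  have Td : ∀ j i, ContDiffOn ℝ 1
      (fun x => ((q x)⁻¹ * a j x) • ∑ k, p k x • bf (s k x) (s i x) (g k i x)) Ω := fun j i =>
    cd_smul ((qd.inv fun x hx => (qpos x hx).ne').mul (ad j))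
      (ContDiffOn.sum fun k _ => cd_smul (pd k) (bf_cd (h.hs k) (h.hs i) (h.hg k i)))
  obtain ⟨C2, hC2, H2⟩ := skew_sum μ hΩ hK hKΩ b
    (T := fun j i x => ((q x)⁻¹ * a j x) • ∑ k, p k x • bf (s k x) (s i x) (g k i x)) Td
    fun j i x hx v w => by
      simp only [smul_apply, sum_apply, smul_eq_mul]
      rw [← mul_neg, ← Finset.sum_neg_distrib]
      congr 1
      exact Finset.sum_congr rfl fun k _ => by rw [(h.cl x hx).skew k i v w]; ring
  set δ := c0 / (2 * (C1 + 1)) with hδ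
  have hδ0 : 0 < δ := by positivity
  set R := |D| + 8 * C2 * |Q| + 2 * C2 / c0 with hR
  have hR0 : 0 ≤ R := by positivity
  refine ⟨q0 / (2 * (R + 1)), by positivity, q0 / (2 * (1 + 8 * C2)), by positivity,
    4 * C2 * (C1 * δ⁻¹) / (1 + 8 * C2), fun T hT hT0 lam hlT v hv h0 hsup => ?_⟩
  have hlam : 0 ≤ lam := by
    by_contra hh
    nlinarith
  have hv1 : ContDiffOn ℝ 1 v Ω := hv.of_le (by norm_num)
  have φc := hφ.continuousOn
  have vc := hv.continuousOn
  have wc : ∀ i, ContinuousOn (fun x => fderiv ℝ v x (b i)) Ω := fun i => co_dir hΩ hv1 (b i)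
  have Lc : ContinuousOn (fun x => ∑ i, s i x (fderiv ℝ v x (b i))) Ω :=
    continuousOn_finsetSum _ fun i _ => (h.hs i).continuousOn.clm_apply (wc i)
  have Sc : ContinuousOn (fun x => ∑ k, p k x • s k x (v x)) Ω :=
    continuousOn_finsetSum _ fun k _ =>
      (pd k).continuousOn.smul ((h.hs k).continuousOn.clm_apply vc)
  set M : E → W := fun x => ∑ i, s i x (fderiv ℝ v x (b i))
    + (lam * (T - φ x)) • ∑ k, p k x • s k x (v x) with hM
  have Mc : ContinuousOn M Ω :=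
    Lc.add ((continuousOn_const.mul (continuousOn_const.sub φc)).smul Sc)
  have io : ∀ {f : E → ℝ}, ContinuousOn f Ω → IntegrableOn f K μ := fun hf =>
    (hf.mono hKΩ).integrableOn_compact hK
  have iv := io (f := fun x => ‖v x‖ ^ 2) (vc.norm.pow 2)
  have iM := io (f := fun x => ‖M x‖ ^ 2) (Mc.norm.pow 2)
  have ig := io (g2_co hΩ b hv1)
  have hmeas := hK.measurableSet
  refine carl_alg (bb := ∫ x in K, g2 b v x ∂μ) (D := |D|) (T := T) (Q := |Q|) (c0 := c0)
    (by positivity) hC2 (integral_nonneg fun _ => sq_nonneg _)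
    (integral_nonneg fun _ => sq_nonneg _) ?_ hlam hlT ?_ ?_
  · rw [le_div_iff₀ (by positivity)] at hT0
    nlinarith
  · have iB := io (f := fun x => ∑ i, ∑ j, bf (s i x) (s j x) (g i j x) (fderiv ℝ v x (b i))
        (fderiv ℝ v x (b j))) (continuousOn_finsetSum _ fun i _ => continuousOn_finsetSum _
        fun j _ => ((bf_cd (h.hs i) (h.hs j) (h.hg i j)).continuousOn.clm_apply (wc i)).clm_apply
          (wc j))
    have e1 := setIntegral_mono_on (iB.add (ig.const_mul c0))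
      ((iM.const_mul 2).add (iv.const_mul (2 * (lam * T) ^ 2 * |Q|))) hmeas fun x hx => by
        have f1 := norm_sum_sq (fun i => s i x) (fun i j => g i j x) fun i => fderiv ℝ v x (b i)
        have f2 := pos_vec (hc x hx) fun i => fderiv ℝ v x (b i)
        have f3 : ‖(lam * (T - φ x)) • ∑ k, p k x • s k x (v x)‖ ^ 2 ≤
            (lam * T) ^ 2 * |Q| * ‖v x‖ ^ 2 := by
          by_cases hx0 : v x = 0
          · simp [hx0]
          · obtain ⟨g1, g2⟩ := hsup x hx hx0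
            rw [norm_smul, mul_pow, ← real_inner_self_eq_norm_sq (∑ k, p k x • s k x (v x)),
              (h.cl x (hKΩ hx)).sym_inner (fun k => p k x), real_inner_self_eq_norm_sq,
              Real.norm_eq_abs, sq_abs, mul_assoc]
            refine mul_le_mul ?_ (mul_le_mul_of_nonneg_right
              ((le_abs_self _).trans ((hQ x hx).trans (le_abs_self Q))) (sq_nonneg _))
              (mul_nonneg (qpos x (hKΩ hx)).le (sq_nonneg _)) (sq_nonneg _)
            exact pow_le_pow_left₀ (mul_nonneg hlam (by linarith))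
              (mul_le_mul_of_nonneg_left (by linarith) hlam) 2
        have f4 : ∑ i, s i x (fderiv ℝ v x (b i)) =
            M x - (lam * (T - φ x)) • ∑ k, p k x • s k x (v x) := by simp [hM]
        have f5 : ‖∑ i, s i x (fderiv ℝ v x (b i))‖ ≤
            ‖M x‖ + ‖(lam * (T - φ x)) • ∑ k, p k x • s k x (v x)‖ := by
          rw [f4]; exact norm_sub_le _ _
        have f6 := pow_le_pow_left₀ (norm_nonneg _) f5 2
        simp only [Pi.add_apply, g2]
        nlinarith [sq_nonneg (‖M x‖ - ‖(lam * (T - φ x)) • ∑ k, p k x • s k x (v x)‖)]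
    simp only [Pi.add_apply] at e1
    rw [integral_add iB (ig.const_mul c0), integral_add (iM.const_mul 2) (iv.const_mul _),
      integral_const_mul, integral_const_mul, integral_const_mul] at e1
    have e2 := (abs_le.1 (H1 v hv h0 δ hδ0)).1
    have e3 : C1 * δ ≤ c0 / 2 := by
      rw [hδ, ← mul_div_assoc, div_le_div_iff₀ (by positivity) (by positivity)]; nlinarith
    have e4 := mul_le_mul_of_nonneg_right e3
      (integral_nonneg (μ := μ.restrict K) (f := g2 b v) fun x =>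
        Finset.sum_nonneg fun _ _ => sq_nonneg _)
    nlinarith
  · have Fd : ∀ j, ContDiffOn ℝ 1 (fun x => (T - φ x) * a j x * ⟪v x, v x⟫) Ω := fun j =>
      ((contDiffOn_const.sub (hφ.of_le (by norm_num))).mul (ad j)).mul (hv1.inner ℝ hv1)
    have hI : ∫ x in K, ∑ j, fderiv ℝ (fun x => (T - φ x) * a j x * ⟪v x, v x⟫) x (b j) ∂μ
        = 0 := by
      rw [integral_finsetSum _ fun j _ => io (co_dir hΩ (Fd j) (b j))]
      exact Finset.sum_eq_zero fun j _ =>
        int_div μ hΩ hK hKΩ (Fd j) (fun x hx hx' => by simp [h0 x hx hx']) (b j)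
    have iF := io (continuousOn_finsetSum Finset.univ fun j _ => co_dir hΩ (Fd j) (b j))
    have iT := io (f := fun x => ∑ j, ∑ i, (((q x)⁻¹ * a j x) •
        ∑ k, p k x • bf (s k x) (s i x) (g k i x)) (fderiv ℝ v x (b j)) (fderiv ℝ v x (b i)))
      (continuousOn_finsetSum _ fun j _ => continuousOn_finsetSum _ fun i _ =>
        ((Td j i).continuousOn.clm_apply (wc j)).clm_apply (wc i))
    have e1 := setIntegral_mono_on (((iT.const_mul 2).add (iF.const_mul lam)).add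
      (iv.const_mul (lam * (q0 - T * |D|)))) iM hmeas fun x hx => by
        have hn := hΩ.mem_nhds (hKΩ hx)
        have f1 := (h.cl x (hKΩ hx)).carl (fun k => p k x) (fun i => fderiv ℝ v x (b i)) (v x)
          (lam * (T - φ x)) (qpos x (hKΩ hx)).ne'
        have d1 := ((hφ.contDiffAt hn).differentiableAt two_ne_zero).hasFDerivAt
        have d2 := ((hv1.contDiffAt hn).differentiableAt one_ne_zero).hasFDerivAt
        have f2 : ∑ j, fderiv ℝ (fun x => (T - φ x) * a j x * ⟪v x, v x⟫) x (b j) =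
            -(q x * ‖v x‖ ^ 2) + (T - φ x) * (∑ j, fderiv ℝ (a j) x (b j)) * ‖v x‖ ^ 2
              + 2 * (T - φ x) * ∑ j, a j x * ⟪fderiv ℝ v x (b j), v x⟫ := by
          simp only [hq, Finset.sum_mul, Finset.mul_sum, ← Finset.sum_neg_distrib,
            ← Finset.sum_add_distrib]
          refine Finset.sum_congr rfl fun j _ => ?_
          have d3 := (((ad j).contDiffAt hn).differentiableAt one_ne_zero).hasFDerivAt
          have := (((d1.const_sub T).mul d3).mul (d2.inner ℝ d2)).fderiv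
          erw [this]
          simp [hp, real_inner_comm]
          ring
        have f3 : lam * (q0 - T * |D|) * ‖v x‖ ^ 2 ≤
            lam * (q x - (T - φ x) * ∑ j, fderiv ℝ (a j) x (b j)) * ‖v x‖ ^ 2 := by
          by_cases hx0 : v x = 0
          · simp [hx0]
          · obtain ⟨g1, g2⟩ := hsup x hx hx0
            refine mul_le_mul_of_nonneg_right (mul_le_mul_of_nonneg_left ?_ hlam) (sq_nonneg _)
            have g3 : ∑ j, fderiv ℝ (a j) x (b j) ≤ |D| :=
              (le_abs_self _).trans ((hD x hx).trans (le_abs_self D))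
            have g4 := mul_le_mul_of_nonneg_left g3 (by linarith : 0 ≤ T - φ x)
            nlinarith [hql x hx, abs_nonneg D]
        simp only [Pi.add_apply]
        rw [f2]
        have f4 : lam * (q x - (T - φ x) * ∑ j, fderiv ℝ (a j) x (b j)) * ‖v x‖ ^ 2 =
            lam * (q x * ‖v x‖ ^ 2) - lam * ((T - φ x) * (∑ j, fderiv ℝ (a j) x (b j))
              * ‖v x‖ ^ 2) := by ring
        change 2 * ∑ j, ∑ i, (((q x)⁻¹ * a j x) • ∑ k, p k x • bf (s k x) (s i x) (g k i x))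
          (fderiv ℝ v x (b j)) (fderiv ℝ v x (b i)) + 2 * (lam * (T - φ x)) *
            ∑ j, a j x * ⟪fderiv ℝ v x (b j), v x⟫ ≤ ‖M x‖ ^ 2 at f1
        linarith
    simp only [Pi.add_apply] at e1
    rw [integral_add (by exact (iT.const_mul 2).add (iF.const_mul lam)) (iv.const_mul _),
      integral_add (iT.const_mul 2) (iF.const_mul lam), integral_const_mul, integral_const_mul,
      integral_const_mul, hI] at e1
    have e2 := (abs_le.1 (H2 v hv h0 (c0 / (lam * T)) (by positivity))).1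
    linarith

end Crest.Agent.X212.Ucp64
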