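import Mathlib

/-!
# Integration by parts on a compact set, skew forms, pointwise Clifford algebra

Tools for the Carleman estimate in `Ucp64/Carl`.
-/

namespace Crest.Agent.X212.Ucp64

open Set MeasureTheory Filter Topology
open scoped RealInnerProductSpace

variable {E : Type*} [NormedAddCommGroup E] [NormedSpace ℝ E] [FiniteDimensional ℝ E]
  [MeasurableSpace E] [BorelSpace E] (μ : Measure E) [μ.IsAddHaarMeasure]
  {Ω K : Set E}

/-- The integral of a derivative of a function supported in `K ⊆ Ω` vanishes. -/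
theorem int_div (hΩ : IsOpen Ω) (hK : IsCompact K) (hKΩ : K ⊆ Ω) {F : E → ℝ}
    (hF : ContDiffOn ℝ 1 F Ω) (h0 : ∀ x ∈ Ω, x ∉ K → F x = 0) (e : E) :
    ∫ x in K, fderiv ℝ F x e ∂μ = 0 := by
  classical
  set G : E → ℝ := Ω.indicator F with hG
  have hGF : ∀ x ∈ Ω, G =ᶠ[𝓝 x] F := fun x hx =>
    Filter.mem_of_superset (hΩ.mem_nhds hx) fun y hy => indicator_of_mem hy F
  have hGK : ∀ x, x ∉ K → G x = 0 := by
    intro x hx
    by_cases h : x ∈ Ω
    · rw [hG, indicator_of_mem h]; exact h0 x h hx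
    · rw [hG, indicator_of_notMem h]
  have hG0 : ∀ x, x ∉ K → G =ᶠ[𝓝 x] fun _ => 0 := fun x hx =>
    Filter.mem_of_superset (hK.isClosed.isOpen_compl.mem_nhds hx) fun y hy => hGK y hy
  have hGd : ContDiff ℝ 1 G := by
    rw [contDiff_iff_contDiffAt]
    intro x
    by_cases h : x ∈ Ω
    · exact (hF.contDiffAt (hΩ.mem_nhds h)).congr_of_eventuallyEq (hGF x h)
    · exact contDiffAt_const.congr_of_eventuallyEq (hG0 x fun hx => h (hKΩ hx))
  have hGs : HasCompactSupport G := HasCompactSupport.intro hK hGK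
  have hc : Continuous fun x => fderiv ℝ G x e :=
    (hGd.continuous_fderiv one_ne_zero).clm_apply continuous_const
  have hz : ∀ x, x ∉ K → fderiv ℝ G x e = 0 := fun x hx => by
    rw [(hG0 x hx).fderiv_eq]; simp
  have hI : Integrable (fun x => fderiv ℝ G x e) μ :=
    hc.integrable_of_hasCompactSupport (HasCompactSupport.intro hK hz)
  have h1 := integral_mul_fderiv_eq_neg_fderiv_mul_of_integrable (μ := μ)
    (f := fun _ : E => (1 : ℝ)) (g := G) (v := e) (by simp) (by simpa using hI)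
    (by simpa using hGd.continuous.integrable_of_hasCompactSupport hGs)
    (fun _ _ => differentiableAt_const _) (fun x _ => hGd.differentiable one_ne_zero x)
  simp only [one_mul, fderiv_fun_const, Pi.zero_apply, zero_apply, zero_mul,
    integral_zero, neg_zero] at h1
  rw [setIntegral_congr_fun hK.measurableSet (g := fun x => fderiv ℝ G x e)
    (fun x hx => by simp only [(hGF x (hKΩ hx)).fderiv_eq]),
    setIntegral_eq_integral_of_forall_compl_eq_zero hz, h1]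

variable {V W : Type*} [NormedAddCommGroup V] [InnerProductSpace ℝ V]
  [NormedAddCommGroup W] [InnerProductSpace ℝ W]

omit [FiniteDimensional ℝ E] [MeasurableSpace E] [BorelSpace E] in
theorem cd_dir {F : Type*} [NormedAddCommGroup F] [NormedSpace ℝ F] (hΩ : IsOpen Ω) {v : E → F}
    (hv : ContDiffOn ℝ 2 v Ω) (e : E) : ContDiffOn ℝ 1 (fun x => fderiv ℝ v x e) Ω :=
  (hv.fderiv_of_isOpen hΩ (m := 1) (by norm_num)).clm_apply contDiffOn_const

omit [FiniteDimensional ℝ E] [MeasurableSpace E] [BorelSpace E] in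
theorem co_dir {F : Type*} [NormedAddCommGroup F] [NormedSpace ℝ F] (hΩ : IsOpen Ω) {v : E → F}
    (hv : ContDiffOn ℝ 1 v Ω) (e : E) : ContinuousOn (fun x => fderiv ℝ v x e) Ω :=
  (hv.continuousOn_fderiv_of_isOpen hΩ le_rfl).clm_apply continuousOn_const

theorem bdd_on {X F : Type*} [TopologicalSpace X] [NormedAddCommGroup F] {K : Set X}
    (hK : IsCompact K) {f : X → F} (hf : ContinuousOn f K) : ∃ C, ∀ x ∈ K, ‖f x‖ ≤ C :=
  hK.exists_bound_of_continuousOn hf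

/-- Skew forms of two first derivatives integrate to terms of order one. -/
theorem skew_id (hΩ : IsOpen Ω) (hK : IsCompact K) (hKΩ : K ⊆ Ω)
    {T : E → V →L[ℝ] V →L[ℝ] ℝ} (hT : ContDiffOn ℝ 1 T Ω)
    (hs : ∀ x ∈ Ω, ∀ v w, T x v w = -T x w v) (e e' : E) {v : E → V}
    (hv : ContDiffOn ℝ 2 v Ω) (h0 : ∀ x ∈ Ω, x ∉ K → v x = 0) :
    2 * ∫ x in K, T x (fderiv ℝ v x e) (fderiv ℝ v x e') ∂μ =
      ∫ x in K, (fderiv ℝ T x e' (v x) (fderiv ℝ v x e)
        - fderiv ℝ T x e (v x) (fderiv ℝ v x e')) ∂μ := by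
  have hv1 : ContDiffOn ℝ 1 v Ω := hv.of_le (by norm_num)
  have hF : ∀ a : E, ContDiffOn ℝ 1 (fun x => T x (v x) (fderiv ℝ v x a)) Ω := fun a =>
    (hT.clm_apply hv1).clm_apply (cd_dir hΩ hv a)
  have hI : ∀ a b : E, ∫ x in K, fderiv ℝ (fun x => T x (v x) (fderiv ℝ v x a)) x b ∂μ = 0 :=
    fun a b => int_div μ hΩ hK hKΩ (hF a) (fun x hx hx' => by simp [h0 x hx hx']) b
  have hD : ∀ a b : E, ∀ x ∈ Ω, fderiv ℝ (fun x => T x (v x) (fderiv ℝ v x a)) x b =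
      fderiv ℝ T x b (v x) (fderiv ℝ v x a) + T x (fderiv ℝ v x b) (fderiv ℝ v x a)
        + T x (v x) (fderiv ℝ (fderiv ℝ v) x b a) := by
    intro a b x hx
    have hn := hΩ.mem_nhds hx
    have d1 := ((hT.contDiffAt hn).differentiableAt one_ne_zero).hasFDerivAt
    have d2 := ((hv1.contDiffAt hn).differentiableAt one_ne_zero).hasFDerivAt
    have d3 := (((hv.fderiv_of_isOpen hΩ (m := 1) (by norm_num)).contDiffAt hn).differentiableAt
      one_ne_zero).hasFDerivAt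
    have := ((d1.clm_apply d2).clm_apply (d3.clm_apply (hasFDerivAt_const a x))).fderiv
    rw [this]
    simp
    ring
  have hsym : ∀ x ∈ Ω, fderiv ℝ (fderiv ℝ v) x e e' = fderiv ℝ (fderiv ℝ v) x e' e := fun x hx =>
    ((hv.contDiffAt (hΩ.mem_nhds hx)).isSymmSndFDerivAt (by simp)).eq e e'
  have hc : ∀ a b : E, IntegrableOn
      (fun x => fderiv ℝ (fun x => T x (v x) (fderiv ℝ v x a)) x b) K μ := fun a b =>
    ((co_dir hΩ (hF a) b).mono hKΩ).integrableOn_compact hK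
  have h1 := integral_sub (hc e' e) (hc e e')
  rw [hI, hI, sub_zero] at h1
  have hc2 : IntegrableOn (fun x => T x (fderiv ℝ v x e) (fderiv ℝ v x e')) K μ :=
    (((hT.continuousOn.clm_apply (co_dir hΩ hv1 e)).clm_apply (co_dir hΩ hv1 e')).mono
      hKΩ).integrableOn_compact hK
  have hc3 : IntegrableOn (fun x => fderiv ℝ T x e' (v x) (fderiv ℝ v x e)
        - fderiv ℝ T x e (v x) (fderiv ℝ v x e')) K μ :=
    (((((co_dir hΩ hT e').clm_apply hv.continuousOn).clm_apply (co_dir hΩ hv1 e)).sub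
      (((co_dir hΩ hT e).clm_apply hv.continuousOn).clm_apply (co_dir hΩ hv1 e'))).mono
      hKΩ).integrableOn_compact hK
  rw [← sub_eq_zero, ← integral_const_mul, ← integral_sub (hc2.const_mul 2) hc3, ← h1]
  refine setIntegral_congr_fun hK.measurableSet fun x hx => ?_
  have hx' := hKΩ hx
  simp only [hD _ _ x hx', hsym x hx']
  rw [hs x hx' (fderiv ℝ v x e') (fderiv ℝ v x e)]
  ring

variable {ι : Type*} [Fintype ι]

/-- `∑ |∂_i v|²`. -/
noncomputable def g2 (b : ι → E) (v : E → V) (x : E) : ℝ := ∑ i, ‖fderiv ℝ v x (b i)‖ ^ 2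

omit [FiniteDimensional ℝ E] [MeasurableSpace E] [BorelSpace E] in
theorem g2_co (hΩ : IsOpen Ω) (b : ι → E) {v : E → V} (hv : ContDiffOn ℝ 1 v Ω) :
    ContinuousOn (g2 b v) Ω :=
  continuousOn_finsetSum _ fun i _ => ((co_dir hΩ hv (b i)).norm).pow 2

omit [FiniteDimensional ℝ E] [MeasurableSpace E] [BorelSpace E] in
theorem le_g2 (b : ι → E) (v : E → V) (x : E) (i : ι) : ‖fderiv ℝ v x (b i)‖ ^ 2 ≤ g2 b v x :=
  Finset.single_le_sum (f := fun i => ‖fderiv ℝ v x (b i)‖ ^ 2) (fun _ _ => sq_nonneg _)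
    (Finset.mem_univ i)

theorem skew_bound (hΩ : IsOpen Ω) (hK : IsCompact K) (hKΩ : K ⊆ Ω) (b : ι → E)
    {T : E → V →L[ℝ] V →L[ℝ] ℝ} (hT : ContDiffOn ℝ 1 T Ω)
    (hs : ∀ x ∈ Ω, ∀ v w, T x v w = -T x w v) (i j : ι) :
    ∃ C, 0 ≤ C ∧ ∀ v : E → V, ContDiffOn ℝ 2 v Ω → (∀ x ∈ Ω, x ∉ K → v x = 0) → ∀ δ > 0,
      |∫ x in K, T x (fderiv ℝ v x (b i)) (fderiv ℝ v x (b j)) ∂μ| ≤
        C * (δ * ∫ x in K, g2 b v x ∂μ + δ⁻¹ * ∫ x in K, ‖v x‖ ^ 2 ∂μ) := by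
  obtain ⟨C1, h1⟩ := bdd_on hK ((co_dir hΩ hT (b i)).mono hKΩ)
  obtain ⟨C2, h2⟩ := bdd_on hK ((co_dir hΩ hT (b j)).mono hKΩ)
  refine ⟨|C1| + |C2|, by positivity, fun v hv h0 δ hδ => ?_⟩
  have hv1 : ContDiffOn ℝ 1 v Ω := hv.of_le (by norm_num)
  have hid := skew_id μ hΩ hK hKΩ hT hs (b i) (b j) hv h0
  have i1 : IntegrableOn (g2 b v) K μ := ((g2_co hΩ b hv1).mono hKΩ).integrableOn_compact hK
  have i2 : IntegrableOn (fun x => ‖v x‖ ^ 2) K μ :=
    ((hv.continuousOn.norm.pow 2).mono hKΩ).integrableOn_compact hK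
  have hb : ‖∫ x in K, (fderiv ℝ T x (b j) (v x) (fderiv ℝ v x (b i))
        - fderiv ℝ T x (b i) (v x) (fderiv ℝ v x (b j))) ∂μ‖ ≤
      ∫ x in K, (|C1| + |C2|) * (δ * g2 b v x + δ⁻¹ * ‖v x‖ ^ 2) ∂μ := by
    refine norm_integral_le_of_norm_le
      (((i1.const_mul δ).add (i2.const_mul δ⁻¹)).const_mul _) ?_
    refine (ae_restrict_iff' hK.measurableSet).2 (Eventually.of_forall fun x hx => ?_)
    have key : ∀ (A : V →L[ℝ] V →L[ℝ] ℝ) (C : ℝ) (k : ι), ‖A‖ ≤ C →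
        ‖A (v x) (fderiv ℝ v x (b k))‖ ≤ |C| * (δ * g2 b v x + δ⁻¹ * ‖v x‖ ^ 2) := by
      intro A C k hA
      refine (A.le_opNorm₂ _ _).trans ?_
      rw [mul_assoc]
      refine mul_le_mul (hA.trans (le_abs_self C)) ?_ (by positivity) (abs_nonneg C)
      have e1 := mul_le_mul_of_nonneg_left (le_g2 b v x k) hδ.le
      have e2 : ‖v x‖ * ‖fderiv ℝ v x (b k)‖ * δ ≤
          (δ * ‖fderiv ℝ v x (b k)‖ ^ 2 + δ⁻¹ * ‖v x‖ ^ 2) * δ := by
        have : (δ * ‖fderiv ℝ v x (b k)‖ ^ 2 + δ⁻¹ * ‖v x‖ ^ 2) * δ =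
            (δ * ‖fderiv ℝ v x (b k)‖) ^ 2 + ‖v x‖ ^ 2 := by field_simp
        rw [this]
        nlinarith [sq_nonneg (δ * ‖fderiv ℝ v x (b k)‖ - ‖v x‖),
          mul_nonneg (mul_nonneg (norm_nonneg (v x)) (norm_nonneg (fderiv ℝ v x (b k)))) hδ.le]
      have := le_of_mul_le_mul_right e2 hδ
      linarith
    refine (norm_sub_le _ _).trans ?_
    have a1 := key _ C2 i (h2 x hx)
    have a2 := key _ C1 j (h1 x hx)
    linarith
  rw [integral_const_mul, integral_add (i1.const_mul δ) (i2.const_mul δ⁻¹), integral_const_mul,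
    integral_const_mul, ← hid, Real.norm_eq_abs, abs_mul, abs_two] at hb
  linarith [abs_nonneg (∫ x in K, T x (fderiv ℝ v x (b i)) (fderiv ℝ v x (b j)) ∂μ)]

theorem skew_sum (hΩ : IsOpen Ω) (hK : IsCompact K) (hKΩ : K ⊆ Ω) (b : ι → E)
    {T : ι → ι → E → V →L[ℝ] V →L[ℝ] ℝ} (hT : ∀ i j, ContDiffOn ℝ 1 (T i j) Ω)
    (hs : ∀ i j, ∀ x ∈ Ω, ∀ v w, T i j x v w = -T i j x w v) :
    ∃ C, 0 ≤ C ∧ ∀ v : E → V, ContDiffOn ℝ 2 v Ω → (∀ x ∈ Ω, x ∉ K → v x = 0) → ∀ δ > 0,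
      |∫ x in K, ∑ i, ∑ j, T i j x (fderiv ℝ v x (b i)) (fderiv ℝ v x (b j)) ∂μ| ≤
        C * (δ * ∫ x in K, g2 b v x ∂μ + δ⁻¹ * ∫ x in K, ‖v x‖ ^ 2 ∂μ) := by
  choose C hC0 hC using fun i j => skew_bound μ hΩ hK hKΩ b (hT i j) (hs i j) i j
  refine ⟨∑ i, ∑ j, C i j, Finset.sum_nonneg fun i _ => Finset.sum_nonneg fun j _ => hC0 i j,
    fun v hv h0 δ hδ => ?_⟩
  have hv1 : ContDiffOn ℝ 1 v Ω := hv.of_le (by norm_num)
  have hi : ∀ i j, IntegrableOn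
      (fun x => T i j x (fderiv ℝ v x (b i)) (fderiv ℝ v x (b j))) K μ := fun i j =>
    ((((hT i j).continuousOn.clm_apply (co_dir hΩ hv1 _)).clm_apply (co_dir hΩ hv1 _)).mono
      hKΩ).integrableOn_compact hK
  rw [integral_finsetSum _ fun i _ => integrable_finsetSum _ fun j _ => hi i j, Finset.sum_mul]
  refine (Finset.abs_sum_le_sum_abs _ _).trans (Finset.sum_le_sum fun i _ => ?_)
  rw [integral_finsetSum _ fun j _ => hi i j, Finset.sum_mul]
  exact (Finset.abs_sum_le_sum_abs _ _).trans (Finset.sum_le_sum fun j _ => hC i j v hv h0 δ hδ)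

/-- The real inner product as a continuous bilinear map. -/
noncomputable def ip (V : Type*) [NormedAddCommGroup V] [InnerProductSpace ℝ V] :
    V →L[ℝ] V →L[ℝ] ℝ := innerSL ℝ

@[simp] theorem ip_apply (v w : V) : ip V v w = ⟪v, w⟫ := rfl

/-- The skew part of `s^t s'`. -/
noncomputable def bf (s s' : V →L[ℝ] W) (g : ℝ) : V →L[ℝ] V →L[ℝ] ℝ :=
  (ip W).bilinearComp s s' - g • ip V

@[simp] theorem bf_apply (s s' : V →L[ℝ] W) (g : ℝ) (v w : V) :
    bf s s' g v w = ⟪s v, s' w⟫ - g * ⟪v, w⟫ := by simp [bf]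

omit [FiniteDimensional ℝ E] [MeasurableSpace E] [BorelSpace E] in
theorem bf_cd [FiniteDimensional ℝ V] {s s' : E → V →L[ℝ] W} {g : E → ℝ}
    (hs : ContDiffOn ℝ 1 s Ω) (hs' : ContDiffOn ℝ 1 s' Ω) (hg : ContDiffOn ℝ 1 g Ω) :
    ContDiffOn ℝ 1 (fun x => bf (s x) (s' x) (g x)) Ω := by
  refine contDiffOn_clm_apply.2 fun v => contDiffOn_clm_apply.2 fun w => ?_
  simp only [bf_apply]
  exact ((hs.clm_apply contDiffOn_const).inner ℝ (hs'.clm_apply contDiffOn_const)).sub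
    (hg.mul contDiffOn_const)

/-- The Clifford relation `s_i^t s_j + s_j^t s_i = 2 g_ij`. -/
def Cl (s : ι → V →L[ℝ] W) (g : ι → ι → ℝ) : Prop :=
  ∀ i j v w, ⟪s i v, s j w⟫ + ⟪s i w, s j v⟫ = 2 * (g i j * ⟪v, w⟫)

omit [Fintype ι] in
theorem Cl.skew {s : ι → V →L[ℝ] W} {g : ι → ι → ℝ} (h : Cl s g) (i j : ι) (v w : V) :
    bf (s i) (s j) (g i j) v w = -bf (s i) (s j) (g i j) w v := by
  simp only [bf_apply]
  have := h i j v w
  rw [real_inner_comm v w]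
  linarith

/-- Pointwise Gårding identity. -/
theorem norm_sum_sq (s : ι → V →L[ℝ] W) (g : ι → ι → ℝ) (w : ι → V) :
    ‖∑ i, s i (w i)‖ ^ 2 =
      ∑ i, ∑ j, bf (s i) (s j) (g i j) (w i) (w j) + ∑ i, ∑ j, g i j * ⟪w i, w j⟫ := by
  rw [← real_inner_self_eq_norm_sq, sum_inner, ← Finset.sum_add_distrib]
  refine Finset.sum_congr rfl fun i _ => ?_
  rw [inner_sum, ← Finset.sum_add_distrib]
  refine Finset.sum_congr rfl fun j _ => ?_
  simp

theorem pos_vec [FiniteDimensional ℝ V] {g : ι → ι → ℝ} {c : ℝ}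
    (h : ∀ ξ : ι → ℝ, c * ∑ i, ξ i ^ 2 ≤ ∑ i, ∑ j, g i j * (ξ i * ξ j)) (w : ι → V) :
    c * ∑ i, ‖w i‖ ^ 2 ≤ ∑ i, ∑ j, g i j * ⟪w i, w j⟫ := by
  let B := stdOrthonormalBasis ℝ V
  have e1 : ∀ x y : V, ⟪x, y⟫ = ∑ k, ⟪B k, x⟫ * ⟪B k, y⟫ := fun x y => by
    rw [← B.sum_inner_mul_inner x y]
    exact Finset.sum_congr rfl fun k _ => by rw [real_inner_comm x]
  have e2 : ∑ i, ‖w i‖ ^ 2 = ∑ k, ∑ i, ⟪B k, w i⟫ ^ 2 := by
    rw [Finset.sum_comm]
    exact Finset.sum_congr rfl fun i _ => by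
      rw [← real_inner_self_eq_norm_sq, e1]; simp only [sq]
  have e3 : ∑ i, ∑ j, g i j * ⟪w i, w j⟫ =
      ∑ k, ∑ i, ∑ j, g i j * (⟪B k, w i⟫ * ⟪B k, w j⟫) := by
    rw [Finset.sum_comm (s := Finset.univ (α := Fin _))]
    refine Finset.sum_congr rfl fun i _ => ?_
    rw [Finset.sum_comm]
    exact Finset.sum_congr rfl fun j _ => by rw [e1, Finset.mul_sum]
  rw [e2, e3, Finset.mul_sum]
  exact Finset.sum_le_sum fun k _ => h _

/-- The symbol in the direction `p` is conformal. -/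
theorem Cl.sym_inner {s : ι → V →L[ℝ] W} {g : ι → ι → ℝ} (h : Cl s g) (p : ι → ℝ) (v w : V) :
    ⟪∑ k, p k • s k v, ∑ k, p k • s k w⟫ = (∑ j, p j * ∑ k, p k * g k j) * ⟪v, w⟫ := by
  have e : ∀ v w : V, ⟪∑ k, p k • s k v, ∑ k, p k • s k w⟫ =
      ∑ j, ∑ k, p j * p k * ⟪s k v, s j w⟫ := fun v w => by
    rw [inner_sum]
    refine Finset.sum_congr rfl fun j _ => ?_
    rw [sum_inner]
    exact Finset.sum_congr rfl fun k _ => by rw [real_inner_smul_left, real_inner_smul_right]; ring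
  have e2 : ⟪∑ k, p k • s k v, ∑ k, p k • s k w⟫ + ⟪∑ k, p k • s k w, ∑ k, p k • s k v⟫ =
      2 * ((∑ j, p j * ∑ k, p k * g k j) * ⟪v, w⟫) := by
    rw [e v w, e w v, ← Finset.sum_add_distrib, Finset.sum_mul, Finset.mul_sum]
    refine Finset.sum_congr rfl fun j _ => ?_
    rw [← Finset.sum_add_distrib, Finset.mul_sum, Finset.sum_mul, Finset.mul_sum]
    refine Finset.sum_congr rfl fun k _ => ?_
    rw [← mul_add, h k j v w]; ring
  rw [real_inner_comm (∑ k, p k • s k v)] at e2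
  linarith

/-- Pointwise Carleman inequality. -/
theorem Cl.carl {s : ι → V →L[ℝ] W} {g : ι → ι → ℝ} (h : Cl s g) (p : ι → ℝ) (w : ι → V) (v : V)
    (m : ℝ) (hq : (∑ j, p j * ∑ k, p k * g k j) ≠ 0) :
    2 * ∑ j, ∑ i, (((∑ j, p j * ∑ k, p k * g k j)⁻¹ * ∑ k, p k * g k j) •
        ∑ k, p k • bf (s k) (s i) (g k i)) (w j) (w i)
      + 2 * m * ∑ j, (∑ k, p k * g k j) * ⟪w j, v⟫
      ≤ ‖∑ i, s i (w i) + m • ∑ k, p k • s k v‖ ^ 2 := by
  set q := ∑ j, p j * ∑ k, p k * g k j with hqd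
  set Y : V := ∑ j, (∑ k, p k * g k j) • w j with hY
  set X : V := q⁻¹ • Y with hX
  set A : W := ∑ k, p k • s k X with hA
  set M : W := ∑ i, s i (w i) + m • ∑ k, p k • s k v with hM
  have e0 : 2 * ⟪A, M⟫ - 2 * ⟪A, A⟫ ≤ ‖M‖ ^ 2 := by
    have := norm_sub_sq_real A M
    rw [real_inner_self_eq_norm_sq]
    nlinarith [sq_nonneg ‖A - M‖, sq_nonneg ‖A‖]
  have e1 : ⟪A, A⟫ = ⟪X, Y⟫ := by
    rw [hA, h.sym_inner, ← hqd]
    conv_lhs => rw [hX, real_inner_smul_right, ← hX]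
    field_simp
  have e2 : ⟪A, ∑ k, p k • s k v⟫ = ∑ j, (∑ k, p k * g k j) * ⟪w j, v⟫ := by
    rw [hA, h.sym_inner, ← hqd, hX, real_inner_smul_left, ← mul_assoc, mul_inv_cancel₀ hq,
      one_mul, hY, sum_inner]
    exact Finset.sum_congr rfl fun j _ => by rw [real_inner_smul_left]
  have e3 : ⟪A, ∑ i, s i (w i)⟫ = ∑ i, (∑ k, p k • bf (s k) (s i) (g k i)) X (w i) + ⟪X, Y⟫ := by
    rw [inner_sum, hY, inner_sum, ← Finset.sum_add_distrib]
    refine Finset.sum_congr rfl fun i _ => ?_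
    rw [hA, sum_inner, real_inner_smul_right, Finset.sum_mul]
    simp only [sum_apply, smul_apply, bf_apply,
      smul_eq_mul, ← Finset.sum_add_distrib]
    exact Finset.sum_congr rfl fun k _ => by rw [real_inner_smul_left]; ring
  have e4 : ∑ j, ∑ i, ((q⁻¹ * ∑ k, p k * g k j) • ∑ k, p k • bf (s k) (s i) (g k i)) (w j) (w i)
      = ∑ i, (∑ k, p k • bf (s k) (s i) (g k i)) X (w i) := by
    rw [Finset.sum_comm]
    refine Finset.sum_congr rfl fun i _ => ?_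
    set Bi := ∑ k, p k • bf (s k) (s i) (g k i)
    rw [hX, hY, map_smul, map_sum]
    simp only [smul_apply, sum_apply, map_smul,
      smul_eq_mul, Finset.mul_sum]
    exact Finset.sum_congr rfl fun j _ => by rw [← Finset.mul_sum]; ring
  rw [e4]
  have e5 : ⟪A, M⟫ = ⟪A, ∑ i, s i (w i)⟫ + m * ⟪A, ∑ k, p k • s k v⟫ := by
    rw [hM, inner_add_right, real_inner_smul_right]
  rw [e5, e1, e2, e3] at e0
  linarith

end Crest.Agent.X212.Ucp64
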