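import Crest.Agent.X212.Ucp64.Carl

/-!
# Unique continuation for Dirac type systems on open sets of a vector space
-/

namespace Crest.Agent.X212.Ucp64

open Set MeasureTheory Filter Topology
open scoped RealInnerProductSpace

variable {E : Type*} [NormedAddCommGroup E] [NormedSpace ℝ E] [FiniteDimensional ℝ E]
  {V W : Type*} [NormedAddCommGroup V] [InnerProductSpace ℝ V] [FiniteDimensional ℝ V]
  [NormedAddCommGroup W] [InnerProductSpace ℝ W] {ι : Type*} [Fintype ι] {Ω K : Set E}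

/-- the cut-off: `1` for `t ≤ T/2`, `0` for `t ≥ T` -/
theorem exists_cut {T : ℝ} (hT : 0 < T) : ∃ χ : ℝ → ℝ, ContDiff ℝ 2 χ ∧ (∀ t, t ≤ T / 2 → χ t = 1) ∧
    (∀ t, T ≤ t → χ t = 0) ∧ ∃ B, ∀ lam, 0 ≤ lam → ∀ t,
      (deriv χ t * Real.exp (lam * (T - t) ^ 2 / 2)) ^ 2 ≤ B * Real.exp (lam * T ^ 2 / 4) := by
  set χ : ℝ → ℝ := fun t => Real.smoothTransition (2 * (T - t) / T) with hχ
  have hd : ContDiff ℝ 2 χ := (Real.smoothTransition.contDiff (n := 2)).comp (by fun_prop)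
  have h1 : ∀ t, t ≤ T / 2 → χ t = 1 := fun t ht =>
    Real.smoothTransition.one_of_one_le (by rw [le_div_iff₀ hT]; linarith)
  have h0 : ∀ t, T ≤ t → χ t = 0 := fun t ht =>
    Real.smoothTransition.zero_of_nonpos (div_nonpos_of_nonpos_of_nonneg (by linarith) hT.le)
  obtain ⟨B, hB⟩ := bdd_on (isCompact_Icc (a := T / 2) (b := T))
    (hd.continuous_deriv (by norm_num)).continuousOn
  refine ⟨χ, hd, h1, h0, B ^ 2, fun lam hlam t => ?_⟩
  rcases lt_or_ge t (T / 2) with h | h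
  · have : χ =ᶠ[𝓝 t] fun _ => 1 := (eventually_lt_nhds h).mono fun s hs => h1 s hs.le
    rw [this.deriv_eq]; simp; positivity
  rcases lt_or_ge T t with h' | h'
  · have : χ =ᶠ[𝓝 t] fun _ => 0 := (eventually_gt_nhds h').mono fun s hs => h0 s hs.le
    rw [this.deriv_eq]; simp; positivity
  rw [mul_pow, ← Real.exp_nat_mul]
  refine mul_le_mul ?_ (Real.exp_le_exp.2 ?_) (Real.exp_pos _).le (sq_nonneg _)
  · rw [← sq_abs]; exact pow_le_pow_left₀ (abs_nonneg _) (hB t ⟨h, h'⟩) 2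
  · have : (T - t) ^ 2 ≤ (T / 2) ^ 2 := pow_le_pow_left₀ (by linarith) (by linarith) 2
    push_cast
    nlinarith [mul_le_mul_of_nonneg_left this hlam]

/-- One step: a solution vanishing on `{φ < 0}` vanishes on `{φ < T}`. -/
theorem shell (hΩ : IsOpen Ω) (hK : IsCompact K) (hKΩ : K ⊆ Ω) (b : ι → E)
    {s : ι → E → V →L[ℝ] W} {g : ι → ι → E → ℝ} (h : Op Ω s g) {φ : E → ℝ}
    (hφ : ContDiffOn ℝ 2 φ Ω) (hφ' : ∀ x ∈ Ω, (fun i => fderiv ℝ φ x (b i)) ≠ 0) {T1 : ℝ}
    (hT1 : 0 < T1) (hKφ : ∀ x ∈ Ω, 0 ≤ φ x → φ x ≤ T1 → x ∈ K) {u : E → V}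
    (hu : ContDiffOn ℝ 2 u Ω) {C : ℝ}
    (hL : ∀ x ∈ K, ‖∑ i, s i x (fderiv ℝ u x (b i))‖ ≤ C * ‖u x‖)
    (h0 : ∀ x ∈ Ω, φ x < 0 → u x = 0) : ∃ T > 0, ∀ x ∈ Ω, φ x < T → u x = 0 := by
  borelize E
  set μ : Measure E := Measure.addHaar
  obtain ⟨T0, hT0, c, hc, C0, H⟩ := carleman μ hΩ hK hKΩ b h hφ hφ'
  set T := min T0 T1 with hTd
  have hT : 0 < T := lt_min hT0 hT1
  obtain ⟨χ, hχ, χ1, χ0, B, hB⟩ := exists_cut hT
  have io : ∀ {f : E → ℝ}, ContinuousOn f Ω → IntegrableOn f K μ := fun hf =>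
    (hf.mono hKΩ).integrableOn_compact hK
  have Sc : ContinuousOn (fun x => ∑ k, fderiv ℝ φ x (b k) • s k x (u x)) Ω :=
    continuousOn_finsetSum _ fun k _ => (cd_dir hΩ hφ (b k)).continuousOn.smul
      ((h.hs k).continuousOn.clm_apply hu.continuousOn)
  set f : E → ℝ := fun x => min 1 (max 0 (T / 2 - φ x)) * ‖u x‖ ^ 2 with hf
  have fc : ContinuousOn f Ω := (continuousOn_const.inf (continuousOn_const.sup
    (continuousOn_const.sub hφ.continuousOn))).mul (hu.continuousOn.norm.pow 2)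
  have f0 : ∀ x, 0 ≤ f x := fun x =>
    mul_nonneg (le_min zero_le_one (le_max_left _ _)) (sq_nonneg _)
  set J := ∫ x in K, f x ∂μ with hJ
  set D := ∫ x in K, ‖∑ k, fderiv ℝ φ x (b k) • s k x (u x)‖ ^ 2 ∂μ
  have hJ0 : 0 ≤ J := integral_nonneg f0
  have main : ∀ lam, 1 ≤ lam * T → 0 ≤ c * lam - C0 - 2 * C ^ 2 →
      (c * lam - C0 - 2 * C ^ 2) * J ≤ 2 * B * D := by
    intro lam hl hl'
    have hlam : 0 ≤ lam := by
      by_contra hh
      nlinarith
    set w : ℝ → ℝ := fun t => Real.exp (lam * (T - t) ^ 2 / 2) with hw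
    set ψ : ℝ → ℝ := fun t => χ t * w t with hψ
    have ψd : ContDiff ℝ 2 ψ := hχ.mul (by simp only [hw]; fun_prop)
    have ψ' : ∀ t, HasDerivAt ψ (deriv χ t * w t - lam * (T - t) * ψ t) t := fun t => by
      have d1 := (hχ.differentiable two_ne_zero t).hasDerivAt
      have d2 := (((((hasDerivAt_id t).const_sub T).pow 2).const_mul lam).div_const 2).exp
      exact (d1.mul d2).congr_deriv (by simp [hw, hψ]; ring)
    set v : E → V := fun x => ψ (φ x) • u x with hv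
    have vd : ContDiffOn ℝ 2 v Ω := (ψd.comp_contDiffOn hφ).smul hu
    have vs : ∀ x ∈ Ω, v x ≠ 0 → 0 ≤ φ x ∧ φ x ≤ T := fun x hx hne =>
      ⟨not_lt.1 fun h' => hne (by simp [hv, h0 x hx h']),
        not_lt.1 fun h' => hne (by simp [hv, hψ, χ0 _ h'.le])⟩
    have v0 : ∀ x ∈ Ω, x ∉ K → v x = 0 := fun x hx hxK => by
      by_contra hne
      exact hxK (hKφ x hx (vs x hx hne).1 ((vs x hx hne).2.trans (min_le_right _ _)))
    have H1 := H T hT (min_le_left _ _) lam hl v vd v0 fun x hx => vs x (hKΩ hx)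
    have iv := io (f := fun x => ‖v x‖ ^ 2) (vd.continuousOn.norm.pow 2)
    have iS := io (f := fun x => ‖∑ k, fderiv ℝ φ x (b k) • s k x (u x)‖ ^ 2) (Sc.norm.pow 2)
    have H2 := integral_mono_of_nonneg (μ := μ.restrict K)
      (f := fun x => ‖∑ i, s i x (fderiv ℝ v x (b i))
          + (lam * (T - φ x)) • ∑ k, fderiv ℝ φ x (b k) • s k x (v x)‖ ^ 2)
      (Eventually.of_forall fun _ => sq_nonneg _)
      ((iv.const_mul (2 * C ^ 2)).add (iS.const_mul (2 * B * Real.exp (lam * T ^ 2 / 4))))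
      ((ae_restrict_iff' hK.measurableSet).2 (Eventually.of_forall fun x hx => by
        have hn := hΩ.mem_nhds (hKΩ hx)
        have d1 := ((hφ.contDiffAt hn).differentiableAt two_ne_zero).hasFDerivAt
        have d2 := ((hu.contDiffAt hn).differentiableAt two_ne_zero).hasFDerivAt
        have d3 := (((ψ' (φ x)).comp_hasFDerivAt x d1).smul d2).fderiv
        have e1 : ∑ i, s i x (fderiv ℝ v x (b i))
            + (lam * (T - φ x)) • ∑ k, fderiv ℝ φ x (b k) • s k x (v x) =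
            ψ (φ x) • ∑ i, s i x (fderiv ℝ u x (b i))
              + (deriv χ (φ x) * w (φ x)) • ∑ k, fderiv ℝ φ x (b k) • s k x (u x) := by
          erw [d3]
          simp only [hv, Finset.smul_sum, ← Finset.sum_add_distrib]
          refine Finset.sum_congr rfl fun i _ => ?_
          simp only [add_apply, smul_apply, ContinuousLinearMap.smulRight_apply, map_add, map_smul,
            Function.comp, smul_eq_mul, smul_smul]
          module
        have e2 : ‖ψ (φ x) • ∑ i, s i x (fderiv ℝ u x (b i))‖ ^ 2 ≤ C ^ 2 * ‖v x‖ ^ 2 := by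
          simp only [hv, norm_smul, mul_pow]
          have := pow_le_pow_left₀ (norm_nonneg _) (hL x hx) 2
          nlinarith [sq_nonneg ‖ψ (φ x)‖]
        have e3 : ‖(deriv χ (φ x) * w (φ x)) • ∑ k, fderiv ℝ φ x (b k) • s k x (u x)‖ ^ 2 ≤
            B * Real.exp (lam * T ^ 2 / 4) * ‖∑ k, fderiv ℝ φ x (b k) • s k x (u x)‖ ^ 2 := by
          rw [norm_smul, mul_pow, Real.norm_eq_abs, sq_abs]
          exact mul_le_mul_of_nonneg_right (hB lam hlam _) (sq_nonneg _)
        simp only [Pi.add_apply]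
        rw [e1]
        set A1 := ψ (φ x) • ∑ i, s i x (fderiv ℝ u x (b i))
        set A2 := (deriv χ (φ x) * w (φ x)) • ∑ k, fderiv ℝ φ x (b k) • s k x (u x)
        have := pow_le_pow_left₀ (norm_nonneg _) (norm_add_le A1 A2) 2
        nlinarith [sq_nonneg (‖A1‖ - ‖A2‖)]))
    simp only [Pi.add_apply] at H2
    rw [integral_add (iv.const_mul _) (iS.const_mul _), integral_const_mul,
      integral_const_mul] at H2
    have H3 := setIntegral_mono_on ((io fc).const_mul (Real.exp (lam * T ^ 2 / 4))) iv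
      hK.measurableSet fun x _ => by
        rcases le_or_gt (T / 2) (φ x) with h' | h'
        · simp only [hf, max_eq_left (sub_nonpos.2 h'), min_eq_right zero_le_one, zero_mul,
            mul_zero]
          positivity
        · simp only [hv, hψ, χ1 _ h'.le, one_mul, norm_smul, mul_pow, Real.norm_eq_abs, sq_abs, hw]
          rw [← Real.exp_nat_mul]
          refine mul_le_mul (Real.exp_le_exp.2 ?_)
            (mul_le_of_le_one_left (sq_nonneg _) (min_le_left _ _)) (f0 x) (Real.exp_pos _).le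
          have : (T / 2) ^ 2 ≤ (T - φ x) ^ 2 := pow_le_pow_left₀ (by linarith) (by linarith) 2
          push_cast
          nlinarith [mul_le_mul_of_nonneg_left this hlam]
    rw [integral_const_mul] at H3
    have H4 := mul_le_mul_of_nonneg_left H3 hl'
    have he := Real.exp_pos (lam * T ^ 2 / 4)
    refine le_of_mul_le_mul_left ?_ he
    nlinarith
  have hJz : J = 0 := by
    by_contra hne
    have hp : 0 < J := lt_of_le_of_ne hJ0 (Ne.symm hne)
    set lam := max (1 / T) ((|2 * B * D| / J + 1 + C0 + 2 * C ^ 2) / c)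
    have l1 : 1 ≤ lam * T := (div_le_iff₀ hT).1 (le_max_left _ _)
    have l2 : |2 * B * D| / J + 1 + C0 + 2 * C ^ 2 ≤ lam * c :=
      (div_le_iff₀ hc).1 (le_max_right _ _)
    have l3 : 0 ≤ |2 * B * D| / J := by positivity
    have l4 := main lam l1 (by linarith)
    have l5 : (|2 * B * D| / J + 1) * J ≤ (c * lam - C0 - 2 * C ^ 2) * J :=
      mul_le_mul_of_nonneg_right (by linarith) hJ0
    rw [add_mul, div_mul_cancel₀ _ hne] at l5
    linarith [le_abs_self (2 * B * D)]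
  have a1 := (setIntegral_eq_zero_iff_of_nonneg_ae (Eventually.of_forall f0) (io fc)).1 hJz
  have a2 : f =ᵐ[μ.restrict Ω] fun _ => 0 := by
    refine (ae_restrict_iff' hΩ.measurableSet).2
      (((ae_restrict_iff' hK.measurableSet).1 a1).mono fun x hx hxΩ => ?_)
    by_cases hxK : x ∈ K
    · exact hx hxK
    · rcases lt_or_ge (φ x) 0 with h' | h'
      · simp [hf, h0 x hxΩ h']
      · have : T / 2 - φ x ≤ 0 := by
          have := not_le.1 fun h'' => hxK (hKφ x hxΩ h' h'')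
          linarith [min_le_right T0 T1]
        simp [hf, max_eq_left this]
  refine ⟨T / 2, half_pos hT, fun x hx hx' => ?_⟩
  have := Measure.eqOn_open_of_ae_eq a2 hΩ fc continuousOn_const hx
  rcases mul_eq_zero.1 this with h' | h'
  · exact absurd h' (lt_min zero_lt_one (lt_max_of_lt_right (sub_pos.2 hx'))).ne'
  · simpa using h'

theorem unif_bound {X : Type*} [TopologicalSpace X] {K : Set X} (hK : IsCompact K) {f g : X → ℝ}
    (hg : ∀ x, 0 ≤ g x) (h : ∀ x ∈ K, ∃ C, ∀ᶠ y in 𝓝 x, f y ≤ C * g y) :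
    ∃ C, ∀ y ∈ K, f y ≤ C * g y := by
  refine hK.induction_on (p := fun A => ∃ C, ∀ y ∈ A, f y ≤ C * g y) ⟨0, fun _ h => h.elim⟩
    (fun _ _ hs ⟨C, hC⟩ => ⟨C, fun y hy => hC y (hs hy)⟩) (fun _ _ ⟨C, hC⟩ ⟨C', hC'⟩ =>
      ⟨max C C', fun y hy => hy.elim (fun hy => (hC y hy).trans
        (mul_le_mul_of_nonneg_right (le_max_left _ _) (hg y))) fun hy => (hC' y hy).trans
        (mul_le_mul_of_nonneg_right (le_max_right _ _) (hg y))⟩) fun x hx => ?_
  obtain ⟨C, hC⟩ := h x hx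
  exact ⟨_, nhdsWithin_le_nhds hC, C, fun y hy => hy⟩

/-- Euclidean balls centred at a point near which the solution vanishes. -/
theorem ball_zero {b : ι → E} (hb : Submodule.span ℝ (range b) = ⊤)
    {s : ι → E → V →L[ℝ] W} {g : ι → ι → E → ℝ} (h : Op Ω s g) {u : E → V}
    (hu : ContDiffOn ℝ 2 u Ω)
    (hL : ∀ x ∈ Ω, ∃ C, ∀ᶠ y in 𝓝 x, ‖∑ i, s i y (fderiv ℝ u y (b i))‖ ≤ C * ‖u y‖)
    {y : E} (hy : u =ᶠ[𝓝 y] 0) {R : ℝ} (hR : ∀ x, ‖toEuclidean (x - y)‖ < R → x ∈ Ω) :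
    ∀ x, ‖toEuclidean (x - y)‖ < R → u x = 0 := by
  set d : E → ℝ := fun x => ‖toEuclidean (x - y)‖ with hd
  have dc : Continuous d := by simp only [hd]; fun_prop
  have hcp : ∀ r, IsCompact {x | d x ≤ r} := fun r => by
    have : {x | d x ≤ r} = (fun z => toEuclidean.symm z + y) '' Metric.closedBall 0 r := by
      ext x
      simp only [mem_ofPred_eq, mem_image, mem_closedBall_zero_iff, hd]
      exact ⟨fun hx => ⟨_, hx, by simp⟩, by rintro ⟨z, hz, rfl⟩; simpa using hz⟩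
    rw [this]
    exact (isCompact_closedBall _ _).image (by fun_prop)
  set S := {ρ | ρ ≤ R ∧ ∀ x, d x < ρ → u x = 0} with hS
  intro x0 hx0
  have hR0 : 0 < R := (norm_nonneg _).trans_lt hx0
  obtain ⟨r0, hr0, hr0S⟩ : ∃ r0 > 0, r0 ∈ S := by
    have : ∀ᶠ z in 𝓝 (0 : EuclideanSpace ℝ (Fin (Module.finrank ℝ E))),
        u (toEuclidean.symm z + y) = 0 := by
      refine (ContinuousAt.tendsto (f := fun z => toEuclidean.symm z + y)
        (by fun_prop)).eventually (p := fun x => u x = 0) ?_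
      simp only [map_zero, zero_add]
      exact hy
    obtain ⟨ε, hε, h1⟩ := Metric.eventually_nhds_iff.1 this
    refine ⟨min ε R, lt_min hε hR0, min_le_right _ _, fun x hx => ?_⟩
    simpa using h1 (y := toEuclidean (x - y)) (by
      rw [dist_zero_right]; exact hx.trans_le (min_le_left _ _))
  have hbdd : BddAbove S := ⟨R, fun _ h => h.1⟩
  set ρ := sSup S with hρ
  have hρ0 : 0 < ρ := hr0.trans_le (le_csSup hbdd hr0S)
  have hρz : ∀ x, d x < ρ → u x = 0 := fun x hx => by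
    obtain ⟨r, hr, hxr⟩ := exists_lt_of_lt_csSup ⟨r0, hr0S⟩ hx
    exact hr.2 x hxr
  refine hρz x0 (hx0.trans_le (not_lt.1 fun hlt => ?_))
  set Ω' := {x | d x < R} ∩ {y}ᶜ with hΩ'
  have hsub : Ω' ⊆ Ω := fun x hx => hR x hx.1
  have ho : IsOpen Ω' := (isOpen_lt dc continuous_const).inter isOpen_compl_singleton
  set m := (ρ + R) / 2 with hm
  have hK : IsCompact ({x | d x ≤ m} ∩ {x | ρ ≤ d x}) :=
    (hcp m).inter_right (isClosed_le continuous_const dc)
  have hKΩ : {x | d x ≤ m} ∩ {x | ρ ≤ d x} ⊆ Ω' := fun x hx =>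
    ⟨lt_of_le_of_lt (b := m) hx.1 (by linarith), fun hxy => by
      have := hx.2
      rw [mem_singleton_iff.1 hxy] at this
      simp only [hd, mem_ofPred_eq, sub_self, map_zero, norm_zero] at this
      linarith⟩
  obtain ⟨C, hC⟩ := unif_bound hK (fun x => norm_nonneg (u x)) fun x hx => hL x (hsub (hKΩ hx))
  have hA : ∀ x, HasFDerivAt (fun x => toEuclidean (x - y))
      (toEuclidean (E := E)).toContinuousLinearMap x := fun x =>
    ((toEuclidean (E := E)).hasFDerivAt.comp x ((hasFDerivAt_id x).sub_const y)).congr_fderiv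
      (by simp)
  have dn : ∀ x, 0 ≤ d x := fun x => norm_nonneg _
  obtain ⟨T, hT, hz⟩ := shell ho hK hKΩ b (h.mono hsub) (φ := fun x => d x ^ 2 - ρ ^ 2)
    (ContDiff.contDiffOn (by
      simp only [hd]
      exact (ContDiff.norm_sq ℝ (by fun_prop)).sub contDiff_const))
    (fun x hx hne => by
      have e := ((hA x).norm_sq.sub_const (ρ ^ 2)).fderiv
      have e2 : fderiv ℝ (fun x => d x ^ 2 - ρ ^ 2) x = 0 := by
        refine ContinuousLinearMap.ext_on (s := range b) (by simp [hb]) ?_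
        rintro _ ⟨i, rfl⟩
        exact congrFun hne i
      have e3 := congrArg (fun L => L (x - y)) (e.symm.trans e2)
      simp [-map_sub] at e3
      exact hx.2 (sub_eq_zero.1 e3))
    (T1 := m ^ 2 - ρ ^ 2) (by nlinarith)
    (fun x _ h1 h2 => ⟨(abs_le_of_sq_le_sq' (a := d x) (b := m) (by linarith) (by linarith)).2,
      (abs_le_of_sq_le_sq' (a := ρ) (b := d x) (by linarith) (dn x)).2⟩)
    (hu.mono hsub) hC fun x _ hx => hρz x (lt_of_pow_lt_pow_left₀ 2 hρ0.le (by linarith))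
  have hmem : min R √(ρ ^ 2 + T) ∈ S := ⟨min_le_left _ _, fun x hx => by
    by_cases hxy : x = y
    · rw [hxy]; exact hy.self_of_nhds
    · refine hz x ⟨hx.trans_le (min_le_left _ _), hxy⟩ ?_
      have := Real.lt_sqrt (dn x) |>.1 (hx.trans_le (min_le_right _ _))
      linarith⟩
  have h1 : ρ < √(ρ ^ 2 + T) := Real.lt_sqrt hρ0.le |>.2 (by linarith)
  exact absurd (le_csSup hbdd hmem) (not_le.2 (lt_min hlt h1))

/-- The set of points near which a solution vanishes is relatively closed. -/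
theorem ev_zero_of_closure (hΩ : IsOpen Ω) {b : ι → E} (hb : Submodule.span ℝ (range b) = ⊤)
    {s : ι → E → V →L[ℝ] W} {g : ι → ι → E → ℝ} (h : Op Ω s g) {u : E → V}
    (hu : ContDiffOn ℝ 2 u Ω)
    (hL : ∀ x ∈ Ω, ∃ C, ∀ᶠ y in 𝓝 x, ‖∑ i, s i y (fderiv ℝ u y (b i))‖ ≤ C * ‖u y‖)
    {x : E} (hx : x ∈ Ω) (hc : x ∈ closure {y | u =ᶠ[𝓝 y] 0}) : u =ᶠ[𝓝 x] 0 := by
  have h1 : ∀ᶠ z in 𝓝 (0 : EuclideanSpace ℝ (Fin (Module.finrank ℝ E))),
      toEuclidean.symm z + x ∈ Ω := by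
    refine (ContinuousAt.tendsto (f := fun z => toEuclidean.symm z + x)
      (by fun_prop)).eventually (p := fun x => x ∈ Ω) ?_
    simpa using hΩ.mem_nhds hx
  obtain ⟨ε, hε, h1⟩ := Metric.eventually_nhds_iff.1 h1
  have ho : ∀ y, IsOpen {z : E | ‖toEuclidean (z - y)‖ < ε / 2} := fun y =>
    isOpen_lt (by fun_prop) continuous_const
  obtain ⟨y, hy1, hy2⟩ := mem_closure_iff.1 hc _ (ho x) (by simpa using hε)
  have hy3 : ‖toEuclidean (x - y)‖ < ε / 2 := by
    rw [← norm_neg, ← map_neg, neg_sub]; exact hy1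
  have := ball_zero hb h hu hL hy2 (R := ε / 2) fun z hz => by
    simpa using h1 (y := toEuclidean (z - x)) (by
      rw [dist_zero_right, show z - x = (z - y) + (y - x) by abel, map_add]
      exact (norm_add_le _ _).trans_lt (by linarith [hy1.out]))
  exact mem_of_superset ((ho y).mem_nhds hy3) this

/-- **Unique continuation** on a connected open set. -/
theorem ucp (hΩ : IsOpen Ω) (hc : IsPreconnected Ω) {b : ι → E}
    (hb : Submodule.span ℝ (range b) = ⊤) {s : ι → E → V →L[ℝ] W} {g : ι → ι → E → ℝ}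
    (h : Op Ω s g) {u : E → V} (hu : ContDiffOn ℝ 2 u Ω)
    (hL : ∀ x ∈ Ω, ∃ C, ∀ᶠ y in 𝓝 x, ‖∑ i, s i y (fderiv ℝ u y (b i))‖ ≤ C * ‖u y‖)
    {y : E} (hy : y ∈ Ω) (h0 : u =ᶠ[𝓝 y] 0) : ∀ x ∈ Ω, u x = 0 := fun _ hx =>
  (hc.subset_of_closure_inter_subset (u := {y | u =ᶠ[𝓝 y] 0}) isOpen_setOfPred_eventually_nhds
    ⟨y, hy, h0⟩ (fun _ hz => ev_zero_of_closure hΩ hb h hu hL hz.2 hz.1) hx).self_of_nhds

end Crest.Agent.X212.Ucp64
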